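import Vale.Agent.N007.Bridge

/-! The points of a packet: stabilisers, volumes, classes. -/

open MeasureTheory Matrix NumberField Filter Topology Module
open scoped nonZeroDivisors ENNReal

namespace Vale.Agent.N007

open Vale.Agent.P007 (G pt tr lat latM aexp orb)

variable {n : ℕ}

/-- A totally real field `K` of degree `n`, an ordering `σ` of its real embeddings and an order
`O ⊆ 𝒪_K` (a subring of full rank). -/
structure Datum (n : ℕ) where
  K : Type
  [fld : Field K]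
  [nf : NumberField K]
  real : IsTotallyReal K
  deg : Module.finrank ℚ K = n
  σ : Fin n ≃ (K →+* ℝ)
  O : Subring (𝓞 K)
  rank : Module.finrank ℤ O = n

attribute [instance] Datum.fld Datum.nf

theorem Datum.full (D : Datum n) : D.O.toAddSubgroup.FiniteIndex := by
  have h : Finite (𝓞 D.K ⧸ AddSubgroup.toIntSubmodule D.O.toAddSubgroup) :=
    Submodule.finiteQuotientOfFreeOfRankEq _
      (D.rank.trans (D.deg.symm.trans (RingOfIntegers.rank D.K).symm))
  exact ⟨AddSubgroup.index_ne_zero_iff_finite.2 h⟩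

instance (D : Datum n) : IsFractionRing D.O D.K := by
  have : FaithfulSMul D.O D.K := (faithfulSMul_iff_algebraMap_injective _ _).2
    (RingOfIntegers.coe_injective.comp Subtype.val_injective)
  refine IsFractionRing.of_field _ _ fun z => ?_
  obtain ⟨x, y, -, rfl⟩ := IsFractionRing.div_surjective (A := 𝓞 D.K) z
  refine ⟨⟨_, D.O.toAddSubgroup.nsmul_index_mem x⟩, ⟨_, D.O.toAddSubgroup.nsmul_index_mem y⟩, ?_⟩
  have h : ((D.O.toAddSubgroup.index : ℕ) : D.K) ≠ 0 := Nat.cast_ne_zero.2 D.full.index_ne_zero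
  change _ = algebraMap (𝓞 D.K) D.K ((_ : ℕ) • x) / algebraMap (𝓞 D.K) D.K ((_ : ℕ) • y)
  rw [map_nsmul, map_nsmul, nsmul_eq_mul, nsmul_eq_mul, mul_div_mul_left _ _ h]

/-- `(K, O, σ)` with one invertible fractional `O`-ideal `rep c` in each class `c ∈ Pic(O)`. -/
structure Triple (n : ℕ) where
  D : Datum n
  rep : ClassGroup D.O → (FractionalIdeal D.O⁰ D.K)ˣ
  mk_rep : ∀ c, ClassGroup.mk D.K (rep c) = c

/-- The discriminant. -/
noncomputable def Datum.disc (D : Datum n) : ℕ := N007.disc D.O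

/-- The discriminant of the intersection with a subfield. -/
noncomputable def Datum.discIn (D : Datum n) (F : IntermediateField ℚ D.K) : ℕ :=
  N007.disc (D.O.comap (algebraMap (𝓞 F) (𝓞 D.K)))

/-- The lattice of an ideal. -/
def Datum.emb (D : Datum n) (I : FractionalIdeal D.O⁰ D.K) : Submodule ℤ (Fin n → ℝ) :=
  N007.emb D.σ {x | x ∈ I}

/-- The point attached to a class and signs. -/
def Triple.IsPoint (T : Triple n) (c : ClassGroup T.D.O) (w : Fin n → ℤˣ) (Λ : X n) : Prop :=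
  ∀ v, v ∈ Λ.1 ↔ ∃ y ∈ T.D.emb (T.rep c),
    v = fun j => ZLattice.covolume (T.D.emb (T.rep c)) ^ (-(1 : ℝ) / n) * y j * (w j : ℤ)

/-- The packet. -/
def Triple.packet (T : Triple n) : Set (Set (X n)) :=
  {S | ∃ c w Λ, T.IsPoint c w Λ ∧ S = orbit flow Λ}

/-- The packet measure. -/
def Triple.IsPacketMeasure (T : Triple n) (μ : Measure (X n)) : Prop := IsAverage T.packet μ

/-- The bundled form of an order. -/
def IsOrder.toD {K : Type} [Field K] [NumberField K] {O : Subring (𝓞 K)} (h : IsOrder n O)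
    (σ : Fin n ≃ (K →+* ℝ)) : Datum n :=
  { K := K, real := h.real, deg := h.deg, σ := σ, O := O, rank := h.rank }

/-- The bundled form of a triple. -/
def IsReps.toT {K : Type} [Field K] [NumberField K] {O : Subring (𝓞 K)}
    {rep : ClassGroup O → (FractionalIdeal O⁰ K)ˣ} (h : IsReps n rep) (σ : Fin n ≃ (K →+* ℝ)) :
    Triple n :=
  ⟨h.order.toD σ, rep, h.mk_rep⟩

theorem Triple.isReps (T : Triple n) : IsReps n T.rep :=
  ⟨⟨T.D.real, T.D.deg, T.D.rank⟩, T.mk_rep⟩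

/-- The other bundled form. -/
def Triple.data (T : Triple n) : Data n :=
  { K := T.D.K, O := T.D.O, σ := T.D.σ, rep := T.rep, reps := T.isReps }

namespace Datum

variable (D : Datum n)

/-- The same data in the coset model. -/
noncomputable def toF : Vale.Agent.P007.Datum n :=
  { K := D.K, real := D.real, deg := D.deg, O := D.O, full := D.full, σ := D.σ }

include D in
theorem pos : 0 < n := D.toF.pos

theorem mem_emb (I : FractionalIdeal D.O⁰ D.K) (y : Fin n → ℝ) :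
    y ∈ D.emb I ↔ ∃ x ∈ I, y = fun j => D.σ j x := by
  refine ⟨fun h => ?_, fun h => Submodule.subset_span h⟩
  induction h using Submodule.span_induction with
  | mem x hx => exact hx
  | zero => exact ⟨0, I.zero_mem, by funext j; simp⟩
  | add x y _ _ hx hy =>
    obtain ⟨a, ha, rfl⟩ := hx
    obtain ⟨b, hb, rfl⟩ := hy
    exact ⟨a + b, Submodule.add_mem (I : Submodule D.O D.K) ha hb, by funext j; simp⟩
  | smul k x _ hx =>
    obtain ⟨a, ha, rfl⟩ := hx
    exact ⟨k • a, zsmul_mem (S := Submodule D.O D.K) (K := (I : Submodule D.O D.K)) ha k,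
      by funext j; simp⟩

/-- `Λ = σ(I) diag(t)`. -/
def Pt (I : FractionalIdeal D.O⁰ D.K) (t : Fin n → ℝ) (Λ : X n) : Prop :=
  ∀ v, v ∈ Λ.1 ↔ ∃ x ∈ I, v = fun j => t j * D.σ j x

theorem exists_matrix (I : (FractionalIdeal D.O⁰ D.K)ˣ) : ∃ M : Matrix (Fin n) (Fin n) ℝ,
    M.det ≠ 0 ∧ ∀ (t v : Fin n → ℝ), v ∈ latM (M * diagonal t) ↔
      ∃ x ∈ (I : FractionalIdeal D.O⁰ D.K), v = fun j => t j * D.σ j x := by
  obtain ⟨b, hb⟩ := D.toF.exists_basis I
  refine ⟨_, D.toF.det_ne_zero b, fun t v => ?_⟩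
  rw [D.toF.latM_basis (S := {a | a ∈ (I : FractionalIdeal D.O⁰ D.K)}) hb]
  refine exists_congr fun x => and_congr Iff.rfl ?_
  simp only [mul_comm (t _)]
  rfl

theorem exists_pt (I : (FractionalIdeal D.O⁰ D.K)ˣ) : 0 < ZLattice.covolume (D.emb I) ∧
    ∀ w : Fin n → ℤˣ, ∃ Λ : X n,
      D.Pt I (fun j => ZLattice.covolume (D.emb I) ^ (-(1 : ℝ) / n) * (w j : ℤ)) Λ := by
  obtain ⟨M, hM, h⟩ := D.exists_matrix I
  have h1 : D.emb I = Submodule.span ℤ (Set.range M.row) := by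
    ext v
    have h2 := h 1 v
    rw [show diagonal (1 : Fin n → ℝ) = 1 from diagonal_one, mul_one] at h2
    rw [mem_emb, mem_span_rows, h2]
    simp
  have h3 : ZLattice.covolume (D.emb I) = |M.det| := by
    rw [h1]
    exact (span_rows hM).2.2
  have h4 : 0 < |M.det| := abs_pos.2 hM
  rw [h3]
  refine ⟨h4, fun w => ⟨⟨_, unimodular_iff.2
    ⟨M * diagonal fun j => |M.det| ^ (-(1 : ℝ) / n) * (w j : ℤ), ?_, rfl⟩⟩,
    fun v => (mem_span_rows _ v).trans (h _ v)⟩⟩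
  have hn' : (n : ℝ) ≠ 0 := Nat.cast_ne_zero.2 D.pos.ne'
  have h5 : ∀ j, |((w j : ℤ) : ℝ)| = 1 := fun j => by
    rcases Int.units_eq_one_or (w j) with h | h <;> simp [h]
  rw [det_mul, det_diagonal, abs_mul, Finset.abs_prod]
  simp only [abs_mul, h5, mul_one, abs_of_pos (Real.rpow_pos_of_pos h4 _)]
  rw [Finset.prod_const, Finset.card_univ, Fintype.card_fin, ← Real.rpow_natCast,
    ← Real.rpow_mul h4.le, div_mul_cancel₀ _ hn', Real.rpow_neg_one, mul_inv_cancel₀ h4.ne']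

variable {D}

theorem Pt.unique {I : FractionalIdeal D.O⁰ D.K} {t : Fin n → ℝ} {Λ Λ' : X n} (h : D.Pt I t Λ)
    (h' : D.Pt I t Λ') : Λ = Λ' := X.ext' fun v => (h v).trans (h' v).symm

theorem Pt.flow {I : FractionalIdeal D.O⁰ D.K} {t : Fin n → ℝ} {Λ : X n} (h : D.Pt I t Λ)
    (u : Fin (n - 1) → ℝ) : D.Pt I (fun j => t j * Real.exp (expo u j)) (flow u Λ) := by
  intro v
  have key : ∀ y : Fin n → ℝ, y ᵥ* (aexp u : G n).1 = fun j => y j * Real.exp (expo u j) :=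
    fun y => funext fun j => vecMul_diagonal _ _ _
  rw [flow_eq, mem_mul]
  simp only [key, h _]
  constructor
  · rintro ⟨_, ⟨x, hx, rfl⟩, rfl⟩
    exact ⟨x, hx, by funext j; ring⟩
  · rintro ⟨x, hx, rfl⟩
    exact ⟨_, ⟨x, hx, rfl⟩, by funext j; ring⟩

theorem Pt.smul {I : FractionalIdeal D.O⁰ D.K} {α : D.K} {t : Fin n → ℝ} {Λ : X n}
    (h : D.Pt (FractionalIdeal.spanSingleton D.O⁰ α * I) t Λ) :
    D.Pt I (fun j => t j * D.σ j α) Λ := by
  intro v
  rw [h v]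
  simp only [FractionalIdeal.mem_singleton_mul]
  constructor
  · rintro ⟨_, ⟨x, hx, rfl⟩, rfl⟩
    exact ⟨x, hx, by funext j; rw [map_mul]; ring⟩
  · rintro ⟨x, hx, rfl⟩
    exact ⟨_, ⟨x, hx, rfl⟩, by funext j; rw [map_mul]; ring⟩

theorem Pt.compare {I I' : (FractionalIdeal D.O⁰ D.K)ˣ} {t t' : Fin n → ℝ} {Λ : X n}
    (ht : ∀ j, t j ≠ 0) (ht' : ∀ j, t' j ≠ 0) (h : D.Pt I t Λ) (h' : D.Pt I' t' Λ) :
    ∃ α : D.K, (∀ j, t j = t' j * D.σ j α) ∧
      (I' : FractionalIdeal D.O⁰ D.K) = FractionalIdeal.spanSingleton D.O⁰ α * I := by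
  obtain ⟨a, ha, ha0'⟩ : ∃ a ∈ (I : FractionalIdeal D.O⁰ D.K), a ≠ 0 :=
    D.toF.exists_ne_zero_mem I
  obtain ⟨a', -, ha'⟩ := (h' _).1 ((h _).2 ⟨a, ha, rfl⟩)
  have h1 : ∀ j, t j = t' j * D.σ j (a' / a) := by
    intro j
    have h2 : D.σ j a ≠ 0 := (map_ne_zero _).2 ha0'
    have h3 : t j * D.σ j a = t' j * D.σ j a' := congrFun ha' j
    rw [map_div₀, ← mul_div_assoc, ← h3, mul_div_cancel_right₀ _ h2]
  refine ⟨_, h1, ?_⟩
  let j : Fin n := ⟨0, D.pos⟩
  have key : ∀ x y : D.K, t j * D.σ j x = t' j * D.σ j y → y = a' / a * x := by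
    intro x y hxy
    rw [h1 j, mul_assoc, ← map_mul] at hxy
    exact ((D.σ j).injective (mul_left_cancel₀ (ht' j) hxy)).symm
  ext y
  rw [FractionalIdeal.mem_singleton_mul]
  constructor
  · intro hy
    obtain ⟨x, hx, hxy⟩ := (h _).1 ((h' _).2 ⟨y, hy, rfl⟩)
    exact ⟨x, hx, key x y (congrFun hxy j).symm⟩
  · rintro ⟨x, hx, rfl⟩
    obtain ⟨y, hy, hxy⟩ := (h' _).1 ((h _).2 ⟨x, hx, rfl⟩)
    rw [← key x y (congrFun hxy j)]
    exact hy

/-- The stabiliser does not depend on the point of the packet. -/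
theorem Pt.stab_iff {I : (FractionalIdeal D.O⁰ D.K)ˣ} {t : Fin n → ℝ} {Λ : X n}
    (ht : ∀ j, t j ≠ 0) (h : D.Pt I t Λ) (u : Fin (n - 1) → ℝ) :
    N007.flow u Λ = Λ ↔ ∃ α : D.K, FractionalIdeal.spanSingleton D.O⁰ α = 1 ∧
      ∀ j, Real.exp (expo u j) = D.σ j α := by
  constructor
  · intro hu
    have h1 := h.flow u
    rw [hu] at h1
    obtain ⟨α, h2, h3⟩ :=
      Pt.compare (fun j => mul_ne_zero (ht j) (Real.exp_pos _).ne') ht h1 h
    refine ⟨α, ?_, fun j => mul_left_cancel₀ (ht j) (h2 j)⟩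
    exact (I.isUnit.mul_right_cancel (by rw [one_mul]; exact h3)).symm
  · rintro ⟨α, h1, h2⟩
    have h3 := h.flow u
    simp only [h2] at h3
    refine h3.unique (Pt.smul ?_)
    rw [h1, one_mul]
    exact h

theorem mk_eq_iff {I J : (FractionalIdeal D.O⁰ D.K)ˣ} :
    ClassGroup.mk D.K I = ClassGroup.mk D.K J ↔ ∃ α : D.K,
      (I : FractionalIdeal D.O⁰ D.K) = FractionalIdeal.spanSingleton D.O⁰ α * J := by
  rw [← mul_inv_eq_one, ← map_inv, ← map_mul, ClassGroup.mk_eq_one_iff,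
    FractionalIdeal.isPrincipal_iff]
  refine exists_congr fun α => ?_
  rw [Units.val_mul, Units.mul_inv_eq_iff_eq_mul]

/-- Invertible ideals are proper. -/
theorem proper (I : (FractionalIdeal D.O⁰ D.K)ˣ) (α : D.K) :
    (∀ x ∈ (I : FractionalIdeal D.O⁰ D.K), α * x ∈ (I : FractionalIdeal D.O⁰ D.K)) ↔
      ∃ a ∈ D.O, (a : D.K) = α := by
  constructor
  · intro h
    have h1 : FractionalIdeal.spanSingleton D.O⁰ α * (I : FractionalIdeal D.O⁰ D.K) ≤ I := by
      intro y hy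
      obtain ⟨x, hx, rfl⟩ := FractionalIdeal.mem_singleton_mul.1 hy
      exact h x hx
    have h2 := mul_le_mul_left h1 ((I⁻¹ : (FractionalIdeal D.O⁰ D.K)ˣ) : FractionalIdeal D.O⁰ D.K)
    rw [mul_assoc, Units.mul_inv, mul_one] at h2
    obtain ⟨a, ha⟩ := (FractionalIdeal.mem_one_iff _).1
      (h2 (FractionalIdeal.mem_spanSingleton_self _ α))
    exact ⟨a, a.2, ha⟩
  · rintro ⟨a, ha, rfl⟩ x hx
    exact Submodule.smul_mem (I : Submodule D.O D.K) (⟨a, ha⟩ : D.O) hx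

theorem mk_surj (D : Datum n) (c : ClassGroup D.O) : ∃ I, ClassGroup.mk D.K I = c :=
  ClassGroup.induction D.K (P := fun c => ∃ I, ClassGroup.mk D.K I = c) (fun I => ⟨I, rfl⟩) c

/-- A choice of representatives. -/
noncomputable def triple (D : Datum n) : Triple n :=
  ⟨D, fun c => (D.mk_surj c).choose, fun c => (D.mk_surj c).choose_spec⟩

/-- The data of the coset model. -/
def ofF {K : Type} [Field K] [NumberField K] {O : Subring (𝓞 K)} {σ : Fin n ≃ (K →+* ℝ)}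
    (h : Vale.Agent.P007.F.IsTriple K O σ) : Datum n where
  K := K
  real := h.real
  deg := h.deg
  σ := σ
  O := O
  rank := by
    have := h.order
    exact (AddSubgroup.finrank_eq_of_finiteIndex O.toAddSubgroup).trans
      ((RingOfIntegers.rank K).trans h.deg)

end Datum

namespace Triple

variable (T : Triple n)

/-- The diagonal matrix of the point attached to `(c, w)`. -/
noncomputable def tt (c : ClassGroup T.D.O) (w : Fin n → ℤˣ) : Fin n → ℝ :=
  fun j => ZLattice.covolume (T.D.emb (T.rep c)) ^ (-(1 : ℝ) / n) * (w j : ℤ)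

theorem cv_pos (c : ClassGroup T.D.O) :
    0 < ZLattice.covolume (T.D.emb (T.rep c)) ^ (-(1 : ℝ) / n) :=
  Real.rpow_pos_of_pos (T.D.exists_pt _).1 _

theorem tt_ne (c : ClassGroup T.D.O) (w : Fin n → ℤˣ) (j : Fin n) : T.tt c w j ≠ 0 :=
  mul_ne_zero (T.cv_pos c).ne' (Int.cast_ne_zero.2 (w j).ne_zero)

theorem isPoint_iff {c : ClassGroup T.D.O} {w : Fin n → ℤˣ} {Λ : X n} :
    T.IsPoint c w Λ ↔ T.D.Pt (T.rep c) (T.tt c w) Λ := by
  refine forall_congr' fun v => iff_congr Iff.rfl ?_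
  simp only [Datum.mem_emb]
  constructor
  · rintro ⟨_, ⟨x, hx, rfl⟩, rfl⟩
    exact ⟨x, hx, by funext j; rw [tt]; ring⟩
  · rintro ⟨x, hx, rfl⟩
    exact ⟨_, ⟨x, hx, rfl⟩, by funext j; rw [tt]; ring⟩

theorem existsUnique_point (c : ClassGroup T.D.O) (w : Fin n → ℤˣ) : ∃! Λ, T.IsPoint c w Λ := by
  obtain ⟨Λ, h⟩ := (T.D.exists_pt (T.rep c)).2 w
  exact ⟨Λ, T.isPoint_iff.2 h, fun Λ' h' => (T.isPoint_iff.1 h').unique h⟩

theorem orbit_mem {I : (FractionalIdeal T.D.O⁰ T.D.K)ˣ} {t : Fin n → ℝ} {Λ : X n}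
    (ht : ∀ j, t j ≠ 0) (h : T.D.Pt I t Λ) : orbit flow Λ ∈ T.packet := by
  set c := ClassGroup.mk T.D.K I with hc
  obtain ⟨β, hβ⟩ := Datum.mk_eq_iff.1 (hc.symm.trans (T.mk_rep c).symm)
  have hβ0 : β ≠ 0 := by
    rintro rfl
    rw [FractionalIdeal.spanSingleton_zero, zero_mul] at hβ
    exact I.ne_zero hβ
  rw [hβ] at h
  have h1 := h.smul
  set s : Fin n → ℝ := fun j => t j * T.D.σ j β with hs
  have hs0 : ∀ j, s j ≠ 0 := fun j => mul_ne_zero (ht j) ((map_ne_zero _).2 hβ0)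
  let w : Fin n → ℤˣ := fun j => if 0 < s j then 1 else -1
  obtain ⟨Λ', h2, -⟩ := T.existsUnique_point c w
  have h3 := T.isPoint_iff.1 h2
  have hδ : ∀ j, 0 < s j / T.tt c w j := by
    intro j
    have h4 := T.cv_pos c
    by_cases hj : 0 < s j
    · refine div_pos hj ?_
      simpa [tt, w, hj] using h4
    · refine div_pos_of_neg_of_neg (lt_of_le_of_ne (not_lt.1 hj) (hs0 j)) ?_
      simpa [tt, w, hj] using h4
  obtain ⟨g, rfl⟩ := pr_surj Λ
  obtain ⟨g', rfl⟩ := pr_surj Λ'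
  obtain ⟨u, hu⟩ := Vale.Agent.P007.lat_eq_diag T.D.pos (g := g') (g' := g) hδ (by
    ext v
    simp only [Set.mem_ofPred_eq, ← mem_pr, h1 _, h3 _]
    constructor
    · rintro ⟨x, hx, rfl⟩
      exact ⟨_, ⟨x, hx, rfl⟩, by funext j; rw [← mul_assoc, div_mul_cancel₀ _ (T.tt_ne c w j)]⟩
    · rintro ⟨_, ⟨x, hx, rfl⟩, rfl⟩
      exact ⟨x, hx, by funext j; rw [← mul_assoc, div_mul_cancel₀ _ (T.tt_ne c w j)]⟩)
  refine ⟨c, w, _, h2, flow_flow.orbit_eq ⟨u, ?_⟩⟩
  change flow u (e n (pt g')) = e n (pt g)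
  rw [hu, e_flow]

theorem class_eq {c c' : ClassGroup T.D.O} {w w' : Fin n → ℤˣ} {Λ Λ' : X n}
    (h : T.IsPoint c w Λ) (h' : T.IsPoint c' w' Λ') (ho : orbit flow Λ = orbit flow Λ') :
    c = c' := by
  obtain ⟨u, hu⟩ : Λ' ∈ orbit flow Λ := ho ▸ flow_flow.mem_orbit Λ'
  have h1 := (T.isPoint_iff.1 h).flow u
  have hu' : flow u Λ = Λ' := hu
  rw [hu'] at h1
  obtain ⟨α, -, h2⟩ := Datum.Pt.compare
    (fun j => mul_ne_zero (T.tt_ne c w j) (Real.exp_pos _).ne') (T.tt_ne c' w') h1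
    (T.isPoint_iff.1 h')
  rw [← T.mk_rep c, ← T.mk_rep c']
  exact (Datum.mk_eq_iff.2 ⟨α, h2⟩).symm

theorem image_orb (x : Vale.Agent.P007.X n) : e n '' orb x = orbit flow (e n x) := by
  rw [orb, ← Set.range_comp]
  exact congrArg Set.range (funext fun u => e_flow u x)

theorem pt_of_F {x : Vale.Agent.P007.X n} (hx : T.D.toF.IsPacketPt x) :
    ∃ (I : (FractionalIdeal T.D.O⁰ T.D.K)ˣ) (t : Fin n → ℝ), (∀ j, t j ≠ 0) ∧
      T.D.Pt I t (e n x) := by
  obtain ⟨I, w, c, g, hc, rfl, hg⟩ := hx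
  refine ⟨I, fun j => c * (w j : ℤ), fun j => mul_ne_zero hc.ne' (Int.cast_ne_zero.2 (w j).ne_zero),
    fun v => ?_⟩
  rw [e_pt, mem_pr, hg]
  refine exists_congr fun a => and_congr Iff.rfl ?_
  simp only [mul_right_comm c _ ((w _ : ℤ) : ℝ)]
  rfl

theorem F_of_point {c : ClassGroup T.D.O} {w : Fin n → ℤˣ} {x : Vale.Agent.P007.X n}
    (h : T.IsPoint c w (e n x)) : T.D.toF.IsPacketPt x := by
  obtain ⟨g, rfl⟩ := Vale.Agent.P007.pt_surjective x
  refine ⟨T.rep c, w, _, g, T.cv_pos c, rfl, ?_⟩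
  ext v
  rw [← mem_pr, ← e_pt, T.isPoint_iff.1 h v]
  refine exists_congr fun a => and_congr Iff.rfl ?_
  simp only [tt, mul_right_comm _ ((w _ : ℤ) : ℝ)]
  rfl

theorem packet_eq : T.packet = (fun S => e n '' S) '' T.D.toF.packet := by
  ext S
  constructor
  · rintro ⟨c, w, Λ, h, rfl⟩
    obtain ⟨x, rfl⟩ := (e n).surjective Λ
    exact ⟨orb x, ⟨x, T.F_of_point h, rfl⟩, image_orb x⟩
  · rintro ⟨_, ⟨x, hx, rfl⟩, rfl⟩
    obtain ⟨I, t, ht, h⟩ := T.pt_of_F hx
    have h1 := T.orbit_mem ht h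
    rw [← image_orb] at h1
    exact h1

theorem packet_finite : T.packet.Finite := by
  rw [packet_eq]
  exact T.D.toF.packet_finite.image _

theorem packet_nonempty : T.packet.Nonempty := by
  rw [packet_eq]
  exact T.D.toF.packet_nonempty.image _

/-- The point attached to `(c, w)`. -/
noncomputable def point (c : ClassGroup T.D.O) (w : Fin n → ℤˣ) : X n :=
  (T.existsUnique_point c w).choose

theorem point_spec (c : ClassGroup T.D.O) (w : Fin n → ℤˣ) : T.IsPoint c w (T.point c w) :=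
  (T.existsUnique_point c w).choose_spec.1

theorem eq_point {c : ClassGroup T.D.O} {w : Fin n → ℤˣ} {Λ : X n} (h : T.IsPoint c w Λ) :
    Λ = T.point c w := (T.existsUnique_point c w).choose_spec.2 Λ h

theorem orbit_point_mem (c : ClassGroup T.D.O) (w : Fin n → ℤˣ) :
    orbit flow (T.point c w) ∈ T.packet := ⟨c, w, _, T.point_spec c w, rfl⟩

theorem orbit_inj (w : Fin n → ℤˣ) : Function.Injective fun c => orbit flow (T.point c w) :=
  fun _ _ h => T.class_eq (T.point_spec _ _) (T.point_spec _ _) h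

theorem finite_classGroup : Finite (ClassGroup T.D.O) := by
  have := T.packet_finite.to_subtype
  exact Finite.of_injective (fun c => (⟨_, T.orbit_point_mem c 1⟩ : T.packet))
    fun _ _ h => T.orbit_inj 1 (congrArg Subtype.val h)

theorem ncard_le : T.packet.ncard ≤ Nat.card (ClassGroup T.D.O) * 2 ^ n := by
  have := T.finite_classGroup
  have h1 : T.packet = (fun p : ClassGroup T.D.O × (Fin n → ℤˣ) =>
      orbit flow (T.point p.1 p.2)) '' Set.univ := by
    ext S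
    constructor
    · rintro ⟨c, w, Λ, h, rfl⟩
      exact ⟨(c, w), trivial, by rw [T.eq_point h]⟩
    · rintro ⟨p, -, rfl⟩
      exact T.orbit_point_mem _ _
  rw [h1]
  refine (Set.ncard_image_le Set.finite_univ).trans (le_of_eq ?_)
  rw [Set.ncard_univ, Nat.card_prod]
  simp

/-- `b` spans the common period lattice of the points of the packet. -/
def Common (b : Basis (Fin (n - 1)) ℝ (Fin (n - 1) → ℝ)) : Prop :=
  ∀ S ∈ T.packet, ∀ Λ ∈ S, ∀ u, u ∈ Submodule.span ℤ (Set.range b) ↔ flow u Λ = Λ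

theorem exists_common : ∃ b, T.Common b := by
  obtain ⟨x, hx⟩ := (e n).surjective (T.point 1 1)
  have h0 := T.point_spec 1 1
  rw [← hx] at h0
  obtain ⟨b, hb⟩ := Vale.Agent.P007.exists_stabBasis _ (T.F_of_point h0)
  refine ⟨b, ?_⟩
  rintro _ ⟨c, w, Λ₀, h, rfl⟩ _ ⟨v, rfl⟩ u
  rw [hb u, ← (e n).injective.eq_iff, e_flow, (T.isPoint_iff.1 h0).stab_iff (T.tt_ne 1 1)]
  exact (((T.isPoint_iff.1 h).flow v).stab_iff
    (fun j => mul_ne_zero (T.tt_ne c w j) (Real.exp_pos _).ne') u).symm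

variable {T} {b : Basis (Fin (n - 1)) ℝ (Fin (n - 1) → ℝ)}

theorem Common.per (hb : T.Common b) {S : Set (X n)} (hS : S ∈ T.packet) {Λ : X n} (h : Λ ∈ S) :
    Per flow b Λ := fun u hu => (hb S hS Λ h u).1 hu

theorem orbit_of_mem {S : Set (X n)} (hS : S ∈ T.packet) {Λ : X n} (h : Λ ∈ S) :
    orbit flow Λ = S := by
  obtain ⟨c, w, Λ₀, -, rfl⟩ := hS
  exact flow_flow.orbit_eq h

theorem nonempty_of_mem {S : Set (X n)} (hS : S ∈ T.packet) : S.Nonempty := by
  obtain ⟨c, w, Λ₀, -, rfl⟩ := hS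
  exact ⟨Λ₀, flow_flow.mem_orbit _⟩

theorem Common.vol_eq (hb : T.Common b) {S : Set (X n)} (hS : S ∈ T.packet) :
    vol S = volume.real (ZSpan.fundamentalDomain b) := by
  have h1 : {u : Fin (n - 1) → ℝ | ∀ Λ ∈ S, flow u Λ = Λ} =
      (Submodule.span ℤ (Set.range b) : Set _) := by
    obtain ⟨Λ₀, h₀⟩ := nonempty_of_mem hS
    ext u
    exact ⟨fun h => (hb S hS Λ₀ h₀ u).2 (h Λ₀ h₀), fun h Λ hΛ => (hb S hS Λ hΛ u).1 h⟩
  rw [vol, h1, Submodule.span_eq,
    ZLattice.covolume_eq_measure_fundamentalDomain _ volume (ZSpan.isAddFundamentalDomain b _)]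

end Triple

end Vale.Agent.N007
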