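import Vale.Agent.N007.Defs

/-! Compact orbits of actions of `ℝ^d`; weak convergence of probabilities. -/

open MeasureTheory Filter Topology Module
open scoped ENNReal CompactlySupported BoundedContinuousFunction Pointwise

namespace Vale.Agent.N007

/-- A continuous action of `ℝ^d`. -/
structure Flow {d : ℕ} {Z : Type} [TopologicalSpace Z] (T : (Fin d → ℝ) → Z → Z) : Prop where
  zero : ∀ z, T 0 z = z
  add : ∀ u v z, T (u + v) z = T u (T v z)
  cont : Continuous fun p : Z × (Fin d → ℝ) => T p.2 p.1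

variable {d : ℕ}

/-- The uniform probability on the fundamental domain of the lattice spanned by `b`. -/
noncomputable def lam (b : Basis (Fin d) ℝ (Fin d → ℝ)) : Measure (Fin d → ℝ) :=
  (volume (ZSpan.fundamentalDomain b))⁻¹ • volume.restrict (ZSpan.fundamentalDomain b)

theorem vol_fd_ne_top (b : Basis (Fin d) ℝ (Fin d → ℝ)) :
    volume (ZSpan.fundamentalDomain b) ≠ ⊤ :=
  (ZSpan.fundamentalDomain_isBounded b).measure_lt_top.ne

instance (b : Basis (Fin d) ℝ (Fin d → ℝ)) : IsProbabilityMeasure (lam b) :=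
  ⟨by
    rw [lam, Measure.smul_apply, Measure.restrict_apply_univ, smul_eq_mul]
    exact ENNReal.inv_mul_cancel (ZSpan.measure_fundamentalDomain_ne_zero b) (vol_fd_ne_top b)⟩

/-- The lattice spanned by `b` fixes `z`. -/
def Per {Z : Type} (T : (Fin d → ℝ) → Z → Z) (b : Basis (Fin d) ℝ (Fin d → ℝ)) (z : Z) : Prop :=
  ∀ u ∈ Submodule.span ℤ (Set.range b), T u z = z

/-- The image of `lam b` on the orbit of `z`. -/
noncomputable def nu {Z : Type} [MeasurableSpace Z] (T : (Fin d → ℝ) → Z → Z)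
    (b : Basis (Fin d) ℝ (Fin d → ℝ)) (z : Z) : Measure Z := (lam b).map fun u => T u z

namespace Flow

variable {Z : Type} [TopologicalSpace Z] {T : (Fin d → ℝ) → Z → Z} (hT : Flow T)
  {b : Basis (Fin d) ℝ (Fin d → ℝ)} {z : Z}

include hT

theorem cont_u (z : Z) : Continuous fun u => T u z :=
  hT.cont.comp (continuous_const.prodMk continuous_id)

theorem cont_z (u : Fin d → ℝ) : Continuous (T u) :=
  hT.cont.comp (continuous_id.prodMk continuous_const)

theorem comm (u v : Fin d → ℝ) (z : Z) : T u (T v z) = T v (T u z) := by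
  rw [← hT.add, add_comm, hT.add]

theorem mem_orbit (z : Z) : z ∈ orbit T z := ⟨0, hT.zero z⟩

theorem orbit_eq {y : Z} (h : y ∈ orbit T z) : orbit T y = orbit T z := by
  obtain ⟨v, rfl⟩ := h
  ext x
  constructor
  · rintro ⟨u, rfl⟩
    exact ⟨u + v, hT.add u v z⟩
  · rintro ⟨u, rfl⟩
    refine ⟨u - v, ?_⟩
    change T (u - v) (T v z) = T u z
    rw [← hT.add, sub_add_cancel]

theorem per_of_mem (h : Per T b z) {y : Z} (hy : y ∈ orbit T z) : Per T b y := by
  obtain ⟨v, rfl⟩ := hy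
  intro u hu
  change T u (T v z) = T v z
  rw [hT.comm, h u hu]

theorem isCompact_orbit (h : Per T b z) : IsCompact (orbit T z) := by
  have h1 : orbit T z = (fun u => T u z) '' closure (ZSpan.fundamentalDomain b) := by
    refine Set.Subset.antisymm ?_ (Set.image_subset_range _ _)
    rintro _ ⟨u, rfl⟩
    obtain ⟨v, hv, -⟩ := ZSpan.exist_unique_vadd_mem_fundamentalDomain b u
    refine ⟨(v : Fin d → ℝ) + u, subset_closure hv, ?_⟩
    change T ((v : Fin d → ℝ) + u) z = T u z
    rw [add_comm, hT.add, h v v.2]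
  rw [h1]
  exact (ZSpan.fundamentalDomain_isBounded b).isCompact_closure.image (hT.cont_u z)

variable [MeasurableSpace Z] [BorelSpace Z]

theorem nu_prob (b : Basis (Fin d) ℝ (Fin d → ℝ)) (z : Z) : IsProbabilityMeasure (nu T b z) :=
  Measure.isProbabilityMeasure_map (hT.cont_u z).measurable.aemeasurable

theorem nu_inv (h : Per T b z) (v : Fin d → ℝ) : (nu T b z).map (T v) = nu T b z := by
  have hv : VAddInvariantMeasure (Submodule.span ℤ (Set.range b)) (Fin d → ℝ) volume :=
    ⟨fun c _ _ => measure_preimage_add volume (c : Fin d → ℝ) _⟩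
  ext E hE
  have hA : MeasurableSet ((fun u => T u z) ⁻¹' E) := (hT.cont_u z).measurable hE
  rw [nu, Measure.map_map (hT.cont_z v).measurable (hT.cont_u z).measurable,
    Measure.map_apply ((hT.cont_z v).measurable.comp (hT.cont_u z).measurable) hE,
    Measure.map_apply (hT.cont_u z).measurable hE, lam, Measure.smul_apply, Measure.smul_apply,
    Measure.restrict_apply hA,
    Measure.restrict_apply (((hT.cont_z v).measurable.comp (hT.cont_u z).measurable) hE)]
  congr 1
  have h1 : (T v ∘ fun u => T u z) ⁻¹' E ∩ ZSpan.fundamentalDomain b =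
      (fun u => v + u) ⁻¹' (((fun u => T u z) ⁻¹' E) ∩ (v +ᵥ ZSpan.fundamentalDomain b)) := by
    ext u
    simp only [Set.mem_inter_iff, Set.mem_preimage, Function.comp_apply, hT.add]
    rw [← vadd_eq_add, Set.vadd_mem_vadd_set_iff]
  rw [h1, measure_preimage_add]
  refine ((ZSpan.isAddFundamentalDomain b volume).vadd_of_comm v).measure_set_eq
    (ZSpan.isAddFundamentalDomain b volume) hA ?_
  rintro ⟨w, hw⟩
  ext u
  change T (w + u) z ∈ E ↔ T u z ∈ E
  rw [add_comm, hT.add, h w hw]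

theorem nu_eq (h : Per T b z) {y : Z} (hy : y ∈ orbit T z) : nu T b y = nu T b z := by
  obtain ⟨v, rfl⟩ := hy
  conv_rhs => rw [← hT.nu_inv h v, nu,
    Measure.map_map (hT.cont_z v).measurable (hT.cont_u z).measurable]
  rw [nu]
  congr 1
  funext u
  exact hT.comm u v z

theorem nu_isOrbitProb [T2Space Z] (h : Per T b z) : IsOrbitProb T (orbit T z) (nu T b z) := by
  refine ⟨hT.nu_prob b z, ?_, hT.nu_inv h⟩
  rw [nu, Measure.map_apply (hT.cont_u z).measurable (hT.isCompact_orbit h).measurableSet.compl]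
  have : (fun u => T u z) ⁻¹' (orbit T z)ᶜ = ∅ := by
    ext u
    simp [orbit]
  rw [this, measure_empty]

variable [SecondCountableTopology Z]

theorem map_prod (b : Basis (Fin d) ℝ (Fin d → ℝ)) (ρ : Measure Z) [IsProbabilityMeasure ρ]
    (hρ : ∀ u, ρ.map (T u) = ρ) : (ρ.prod (lam b)).map (fun p => T p.2 p.1) = ρ := by
  ext E hE
  rw [Measure.map_apply hT.cont.measurable hE, Measure.prod_apply_symm (hT.cont.measurable hE)]
  have h3 : ∀ u, ρ ((fun y => (y, u)) ⁻¹' ((fun p : Z × (Fin d → ℝ) => T p.2 p.1) ⁻¹' E)) = ρ E := by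
    intro u
    conv_rhs => rw [← hρ u, Measure.map_apply (hT.cont_z u).measurable hE]
    rfl
  simp only [h3, lintegral_const, measure_univ, mul_one]

theorem unique (h : Per T b z) {ν : Measure Z} (hν : IsOrbitProb T (orbit T z) ν) :
    ν = nu T b z := by
  have := hν.1
  ext E hE
  conv_lhs => rw [← hT.map_prod b ν hν.2.2]
  rw [Measure.map_apply hT.cont.measurable hE, Measure.prod_apply (hT.cont.measurable hE)]
  have h1 : ∀ᵐ y ∂ν, lam b (Prod.mk y ⁻¹' ((fun p : Z × (Fin d → ℝ) => T p.2 p.1) ⁻¹' E)) =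
      nu T b z E := by
    have h2 : ∀ᵐ y ∂ν, y ∈ orbit T z := hν.2.1
    filter_upwards [h2] with y hy
    rw [← hT.nu_eq h hy, nu, Measure.map_apply (hT.cont_u y).measurable hE]
    rfl
  rw [lintegral_congr_ae h1, lintegral_const, measure_univ, mul_one]

theorem integral_nu (b : Basis (Fin d) ℝ (Fin d → ℝ)) (ρ : Measure Z) [IsProbabilityMeasure ρ]
    (hρ : ∀ u, ρ.map (T u) = ρ) (g : Z →ᵇ ℝ) : Integrable (fun y => ∫ x, g x ∂nu T b y) ρ ∧
      ∫ x, g x ∂ρ = ∫ y, ∫ x, g x ∂nu T b y ∂ρ := by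
  have hint : Integrable (fun p : Z × (Fin d → ℝ) => g (T p.2 p.1)) (ρ.prod (lam b)) :=
    (g.compContinuous ⟨_, hT.cont⟩).integrable _
  have h1 : ∀ y, ∫ x, g x ∂nu T b y = ∫ u, g (T u y) ∂lam b := fun y =>
    integral_map (hT.cont_u y).measurable.aemeasurable g.continuous.aestronglyMeasurable
  simp only [h1]
  refine ⟨hint.integral_prod_left, ?_⟩
  conv_lhs => rw [← hT.map_prod b ρ hρ]
  rw [integral_map hT.cont.measurable.aemeasurable g.continuous.aestronglyMeasurable,
    integral_prod _ hint]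

theorem markov (b : Basis (Fin d) ℝ (Fin d → ℝ)) (ρ : Measure Z) [IsProbabilityMeasure ρ]
    (hρ : ∀ u, ρ.map (T u) = ρ) (g : Z →ᵇ ℝ) (hg : ∀ z, 0 ≤ g z) (ε : ℝ) :
    ε * ρ.real {y | ε ≤ ∫ x, g x ∂nu T b y} ≤ ∫ x, g x ∂ρ := by
  obtain ⟨h1, h2⟩ := hT.integral_nu b ρ hρ g
  rw [h2]
  exact mul_meas_ge_le_integral_of_nonneg
    (Eventually.of_forall fun y => integral_nonneg fun u => hg _) h1 ε

end Flow

section weak

variable {Z : Type} [TopologicalSpace Z] [MeasurableSpace Z] [BorelSpace Z]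

/-- Convergence of the integrals of the bounded continuous functions. -/
def BCTo (μ : ℕ → Measure Z) (m : Measure Z) : Prop :=
  ∀ f : Z →ᵇ ℝ, Tendsto (fun i => ∫ x, f x ∂μ i) atTop (𝓝 (∫ x, f x ∂m))

/-- Convergence of the integrals of the compactly supported continuous functions. -/
def CcTo (μ : ℕ → Measure Z) (m : Measure Z) : Prop :=
  ∀ f : C_c(Z, ℝ), Tendsto (fun i => ∫ x, f x ∂μ i) atTop (𝓝 (∫ x, f x ∂m))

omit [BorelSpace Z] in
theorem BCTo.ccTo {μ : ℕ → Measure Z} {m : Measure Z} (h : BCTo μ m) : CcTo μ m :=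
  fun f => h f.toBoundedContinuousFunction

variable [TopologicalSpace.MetrizableSpace Z] [SecondCountableTopology Z] [LocallyCompactSpace Z]

theorem exists_cut (m : Measure Z) [IsProbabilityMeasure m] {ε : ℝ} (hε : 0 < ε) :
    ∃ F : C_c(Z, ℝ), (∀ x, 0 ≤ F x ∧ F x ≤ 1) ∧ 1 - ε < ∫ x, F x ∂m := by
  obtain ⟨K, -, hKc, hK⟩ := (MeasurableSet.univ (α := Z)).exists_isCompact_lt_add
    (measure_ne_top m _) (ε := ENNReal.ofReal ε) (by simpa using hε)
  rw [measure_univ] at hK
  obtain ⟨f, hfK, -, hfc, hf01⟩ := exists_continuous_one_zero_of_isCompact hKc isClosed_empty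
    (Set.disjoint_empty K)
  refine ⟨⟨f, hfc⟩, hf01, ?_⟩
  have h1 : m.real K ≤ ∫ x, f x ∂m := by
    have h2 : ∫ x, K.indicator (fun _ => (1 : ℝ)) x ∂m = m.real K := by
      rw [integral_indicator hKc.measurableSet, setIntegral_const, smul_eq_mul, mul_one]
    rw [← h2]
    refine integral_mono_of_nonneg (Eventually.of_forall fun x => ?_) ?_
      (Eventually.of_forall fun x => ?_)
    · exact Set.indicator_nonneg (fun _ _ => zero_le_one) x
    · exact f.continuous.integrable_of_hasCompactSupport hfc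
    · by_cases hx : x ∈ K
      · rw [Set.indicator_of_mem hx]
        exact (hfK hx).ge
      · rw [Set.indicator_of_notMem hx]
        exact (hf01 x).1
  have h4 := (ENNReal.toReal_lt_toReal ENNReal.one_ne_top
    (ENNReal.add_ne_top.mpr ⟨measure_ne_top m K, ENNReal.ofReal_ne_top⟩)).mpr hK
  rw [ENNReal.toReal_one, ENNReal.toReal_add (measure_ne_top m K) ENNReal.ofReal_ne_top,
    ENNReal.toReal_ofReal hε.le] at h4
  have h5 : m.real K = (m K).toReal := rfl
  change 1 - ε < ∫ x, f x ∂m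
  linarith

theorem CcTo.weakTo {μ : ℕ → Measure Z} {m : Measure Z} [IsProbabilityMeasure m]
    (hμ : ∀ᶠ i in atTop, IsProbabilityMeasure (μ i)) (h : CcTo μ m) : WeakTo μ m := by
  refine ⟨h, fun ε hε => ?_⟩
  obtain ⟨F, hF, hFm⟩ := exists_cut m hε
  refine ⟨tsupport F, F.hasCompactSupport, ?_⟩
  filter_upwards [(h F).eventually (lt_mem_nhds hFm), hμ] with i hi hp
  refine hi.le.trans ?_
  have h7 : ∫ x, (tsupport F).indicator (fun _ => (1 : ℝ)) x ∂μ i = (μ i).real (tsupport F) := by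
    rw [integral_indicator (isClosed_tsupport F).measurableSet, setIntegral_const, smul_eq_mul,
      mul_one]
  rw [← h7]
  refine integral_mono_of_nonneg (Eventually.of_forall fun x => (hF x).1) ?_
    (Eventually.of_forall fun x => ?_)
  · exact (integrable_const (1 : ℝ)).indicator (isClosed_tsupport F).measurableSet
  · by_cases hx : x ∈ tsupport F
    · rw [Set.indicator_of_mem hx]
      exact (hF x).2
    · rw [Set.indicator_of_notMem hx, image_eq_zero_of_notMem_tsupport hx]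

omit [SecondCountableTopology Z] [LocallyCompactSpace Z] in
theorem cut_bound (f : Z →ᵇ ℝ) (F : C_c(Z, ℝ)) (hF : ∀ x, 0 ≤ F x ∧ F x ≤ 1) (ν : Measure Z)
    [IsProbabilityMeasure ν] :
    |∫ x, f x ∂ν - ∫ x, f x * F x ∂ν| ≤ ‖f‖ * (1 - ∫ x, F x ∂ν) := by
  have hFi : Integrable F ν := F.continuous.integrable_of_hasCompactSupport F.hasCompactSupport
  have h1 : Integrable (fun x => f x * F x) ν := (f * F.toBoundedContinuousFunction).integrable ν
  have h2 : ‖f‖ * (1 - ∫ x, F x ∂ν) = ∫ x, ‖f‖ * (1 - F x) ∂ν := by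
    rw [integral_const_mul, integral_sub (integrable_const _) hFi]
    simp
  rw [← integral_sub (f.integrable ν) h1, h2]
  refine abs_integral_le_integral_abs.trans (integral_mono ((f.integrable ν).sub h1).abs
    (((integrable_const _).sub hFi).const_mul _) fun x => ?_)
  have h3 : f x - f x * F x = f x * (1 - F x) := by ring
  change |f x - f x * F x| ≤ ‖f‖ * (1 - F x)
  rw [h3, abs_mul, abs_of_nonneg (sub_nonneg.2 (hF x).2)]
  exact mul_le_mul_of_nonneg_right (f.norm_coe_le_norm x) (sub_nonneg.2 (hF x).2)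

theorem CcTo.bcTo {μ : ℕ → Measure Z} {m : Measure Z} [IsProbabilityMeasure m]
    (hμ : ∀ᶠ i in atTop, IsProbabilityMeasure (μ i)) (h : CcTo μ m) : BCTo μ m := by
  intro f
  rw [Metric.tendsto_nhds]
  intro ε hε
  have hδ : 0 < ε / (3 * (‖f‖ + 1)) := by positivity
  obtain ⟨F, hF, hFm⟩ := exists_cut m hδ
  let G : C_c(Z, ℝ) := ⟨⟨fun x => f x * F x, f.continuous.mul F.continuous⟩,
    F.hasCompactSupport.mul_left⟩
  have h1 := Metric.tendsto_nhds.1 (h G) (ε / 3) (by positivity)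
  have hb : ∀ t : ℝ, 1 - ε / (3 * (‖f‖ + 1)) < t → ‖f‖ * (1 - t) ≤ ε / 3 := by
    intro t ht
    calc ‖f‖ * (1 - t) ≤ ‖f‖ * (ε / (3 * (‖f‖ + 1))) :=
          mul_le_mul_of_nonneg_left (by linarith) (norm_nonneg f)
      _ ≤ (‖f‖ + 1) * (ε / (3 * (‖f‖ + 1))) := mul_le_mul_of_nonneg_right (by linarith) hδ.le
      _ = ε / 3 := by field_simp
  filter_upwards [(h F).eventually (lt_mem_nhds hFm), hμ, h1] with i hi hp h2
  have h3 := (cut_bound f F hF (μ i)).trans (hb _ hi)
  have h4 := (cut_bound f F hF m).trans (hb _ hFm)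
  rw [Real.dist_eq] at h2 ⊢
  change |∫ x, f x * F x ∂μ i - ∫ x, f x * F x ∂m| < ε / 3 at h2
  rw [abs_le] at h3 h4
  rw [abs_lt] at h2 ⊢
  constructor <;> linarith

theorem exists_diag (p : ℕ → ℕ → Prop) (h : ∀ k, ∀ᶠ i in atTop, p i k) :
    ∃ k : ℕ → ℕ, Tendsto k atTop atTop ∧ ∀ᶠ i in atTop, p i (k i) := by
  classical
  simp only [eventually_atTop] at h
  choose N hN using h
  refine ⟨fun i => Nat.findGreatest (fun k => N k ≤ i) i, tendsto_atTop.2 fun K => ?_, ?_⟩
  · filter_upwards [eventually_ge_atTop K, eventually_ge_atTop (N K)] with i h1 h2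
    exact Nat.le_findGreatest h1 h2
  · filter_upwards [eventually_ge_atTop (N 0)] with i h1
    exact hN _ i (Nat.findGreatest_spec (P := fun k => N k ≤ i) (Nat.zero_le i) h1)

omit [LocallyCompactSpace Z] in
/-- From convergence in probability for each test function to large sets of good points. -/
theorem exists_good {Ω : Type} (s : ℕ → Set Ω → ℝ) (s0 : ∀ i A, 0 ≤ s i A)
    (se : ∀ i, s i ∅ = 0) (sm : ∀ i A B, A ⊆ B → s i A ≤ s i B)
    (su : ∀ i A B, s i (A ∪ B) ≤ s i A + s i B) (φ : ℕ → Ω → Measure Z)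
    (hφ : ∀ i ω, IsProbabilityMeasure (φ i ω)) (m : Measure Z) [IsProbabilityMeasure m]
    (h : ∀ (f : Z →ᵇ ℝ) (ε : ℝ), 0 < ε →
      Tendsto (fun i => s i {ω | ε ≤ |∫ x, f x ∂φ i ω - ∫ x, f x ∂m|}) atTop (𝓝 0)) :
    ∃ E : ℕ → Set Ω, Tendsto (fun i => s i (E i)ᶜ) atTop (𝓝 0) ∧
      ∀ ν : ℕ → Measure Z, (∀ᶠ i in atTop, ∃ ω ∈ E i, ν i = φ i ω) → BCTo ν m := by
  classical
  let ψ : ℕ → Ω → ProbabilityMeasure Z := fun i ω => ⟨φ i ω, hφ i ω⟩
  let m' : ProbabilityMeasure Z := ⟨m, inferInstance⟩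
  let L : Filter (ProbabilityMeasure Z) :=
    { sets := {U | Tendsto (fun i => s i {ω | ψ i ω ∉ U}) atTop (𝓝 0)}
      univ_sets := by simp [se]
      sets_of_superset := fun {U V} hU hUV => squeeze_zero (fun i => s0 _ _)
        (fun i => sm i _ _ fun ω hω h' => hω (hUV h')) hU
      inter_sets := fun {U V} hU hV => by
        have h1 := Tendsto.add hU hV
        rw [add_zero] at h1
        refine squeeze_zero (fun i => s0 _ _) (fun i => (sm i _ _ ?_).trans (su i _ _)) h1
        intro ω hω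
        exact not_and_or.1 hω }
  have hL : Tendsto id L (𝓝 m') := by
    refine ProbabilityMeasure.tendsto_iff_forall_integral_tendsto.2 fun f => ?_
    rw [Metric.tendsto_nhds]
    intro ε hε
    refine squeeze_zero (fun i => s0 _ _) (fun i => sm i _ _ fun ω hω => ?_) (h f ε hε)
    have h1 : ¬ dist (∫ x, f x ∂φ i ω) (∫ x, f x ∂m) < ε := hω
    exact not_lt.1 h1
  obtain ⟨U, hU⟩ := (𝓝 m').exists_antitone_basis
  obtain ⟨k, hk, hk'⟩ := exists_diag (fun i k => s i {ω | ψ i ω ∉ U k} < 1 / ((k : ℝ) + 1))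
    fun k => (show Tendsto (fun i => s i {ω | ψ i ω ∉ U k}) atTop (𝓝 0) from
      hL (hU.mem k)).eventually (gt_mem_nhds Nat.one_div_pos_of_nat)
  refine ⟨fun i => {ω | ψ i ω ∈ U (k i)}, ?_, fun ν hν => ?_⟩
  · exact squeeze_zero' (Eventually.of_forall fun i => s0 _ _) (hk'.mono fun i hi => hi.le)
      (tendsto_one_div_add_atTop_nhds_zero_nat.comp hk)
  · let ν' : ℕ → ProbabilityMeasure Z := fun i =>
      if hi : IsProbabilityMeasure (ν i) then ⟨ν i, hi⟩ else m'
    have h1 : ∀ᶠ i in atTop, (ν' i : Measure Z) = ν i ∧ ν' i ∈ U (k i) := by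
      filter_upwards [hν] with i ⟨ω, hω, hi⟩
      have h2 : IsProbabilityMeasure (ν i) := hi ▸ hφ i ω
      have h3 : ν' i = ψ i ω := by
        have h5 : ν' i = ⟨ν i, h2⟩ := dif_pos h2
        rw [h5]
        exact Subtype.ext hi
      exact ⟨by rw [h3, hi]; rfl, h3 ▸ hω⟩
    have h4 : Tendsto ν' atTop (𝓝 m') := fun t ht => by
      change ∀ᶠ i in atTop, ν' i ∈ t
      filter_upwards [hk.eventually (hU.eventually_subset ht), h1] with i a b
      exact a b.2
    intro f
    refine (ProbabilityMeasure.tendsto_iff_forall_integral_tendsto.1 h4 f).congr' ?_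
    filter_upwards [h1] with i hi
    rw [hi.1]

omit [LocallyCompactSpace Z] in
theorem BCTo.pi {μ : ℕ → Measure Z} {m : Measure Z} [IsProbabilityMeasure m]
    [∀ i, IsProbabilityMeasure (μ i)] (h : BCTo μ m) (k : ℕ) :
    BCTo (fun i => Measure.pi fun _ : Fin k => μ i) (Measure.pi fun _ : Fin k => m) := by
  let μ' : ℕ → ProbabilityMeasure Z := fun i => ⟨μ i, inferInstance⟩
  let m' : ProbabilityMeasure Z := ⟨m, inferInstance⟩
  have h1 : Tendsto μ' atTop (𝓝 m') := ProbabilityMeasure.tendsto_iff_forall_integral_tendsto.2 h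
  have h2 : Tendsto (fun i => fun _ : Fin k => μ' i) atTop (𝓝 fun _ => m') :=
    tendsto_pi_nhds.2 fun _ => h1
  exact ProbabilityMeasure.tendsto_iff_forall_integral_tendsto.1
    ((ProbabilityMeasure.continuous_pi.tendsto _).comp h2)

end weak

end Vale.Agent.N007
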