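import Vale.Agent.N007.Erg
import Vale.Agent.N007.Orb

/-! The space of lattices is the coset space. -/

open MeasureTheory Matrix Filter Topology Module
open scoped ENNReal CompactlySupported BoundedContinuousFunction

namespace Vale.Agent.N007

open Vale.Agent.P007 (G pt tr lat latM aexp castM)

variable {n : ℕ}

theorem mem_span_rows (M : Matrix (Fin n) (Fin n) ℝ) (v : Fin n → ℝ) :
    v ∈ Submodule.span ℤ (Set.range M.row) ↔ v ∈ latM M := by
  rw [Submodule.mem_span_range_iff_exists_fun]
  refine exists_congr fun c => ?_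
  have : ∑ i, c i • M.row i = (fun i => (c i : ℝ)) ᵥ* M := by
    funext j
    simp [vecMul, dotProduct, Matrix.row]
  rw [this]

theorem X.ext' {Λ Λ' : X n} (h : ∀ v, v ∈ Λ.1 ↔ v ∈ Λ'.1) : Λ = Λ' :=
  Subtype.ext (Submodule.ext h)

theorem mem_mul (Λ : X n) (g : G n) (v : Fin n → ℝ) :
    v ∈ (Λ.mul g).1 ↔ ∃ y ∈ Λ.1, y ᵥ* g.1 = v := Iff.rfl

theorem X.mul_one (Λ : X n) : Λ.mul 1 = Λ := by
  refine X.ext' fun v => ?_
  rw [mem_mul]
  simp

theorem X.mul_mul (Λ : X n) (g h : G n) : Λ.mul (g * h) = (Λ.mul g).mul h := by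
  refine X.ext' fun v => ?_
  simp only [mem_mul]
  constructor
  · rintro ⟨y, hy, rfl⟩
    exact ⟨_, ⟨y, hy, rfl⟩, vecMul_vecMul _ _ _⟩
  · rintro ⟨_, ⟨y, hy, rfl⟩, rfl⟩
    exact ⟨y, hy, (vecMul_vecMul _ _ _).symm⟩

theorem mem_pr (g : G n) (v : Fin n → ℝ) : v ∈ ((std n).mul g).1 ↔ v ∈ lat g := by
  have h : ((std n).mul g).1 = Submodule.span ℤ (Set.range g.1.row) := by
    have h1 := map_span_rows 1 g.1
    rw [one_mul] at h1
    exact h1
  rw [h, mem_span_rows]
  rfl

theorem pr_eq_iff {g h : G n} : (std n).mul g = (std n).mul h ↔ pt g = pt h := by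
  constructor
  · intro h1
    refine Vale.Agent.P007.Stab.pt_eq_of_lat_eq g h ?_
    ext v
    rw [← mem_pr, ← mem_pr, h1]
  · intro h1
    obtain ⟨γ, hγ⟩ := Vale.Agent.P007.pt_eq_pt.1 h1
    have h2 : h.1 = castM γ.1 * g.1 := congrArg Subtype.val (eq_mul_inv_iff_mul_eq.1 hγ).symm
    refine X.ext' fun v => ?_
    rw [mem_pr, mem_pr, Vale.Agent.P007.lat_eq_latM, Vale.Agent.P007.lat_eq_latM, h2,
      Vale.Agent.P007.latM_unimodular (by rw [γ.2]; exact isUnit_one)]

theorem pr_surj (Λ : X n) : ∃ g : G n, (std n).mul g = Λ := by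
  obtain ⟨M, hM, h⟩ := unimodular_iff.1 Λ.2
  rcases (abs_eq zero_le_one).1 hM with h1 | h1
  · exact ⟨⟨M, h1⟩, X.ext' fun v => (mem_pr _ v).trans (by rw [h, mem_span_rows]; rfl)⟩
  · obtain _ | k := n
    · rw [det_isEmpty] at h1
      norm_num at h1
    · set P : Matrix (Fin (k + 1)) (Fin (k + 1)) ℤ := diagonal (Function.update 1 0 (-1)) with hP
      have hPd : P.det = -1 := by
        rw [hP, det_diagonal, Finset.prod_update_of_mem (Finset.mem_univ _)]
        simp
      refine ⟨⟨castM P * M, by rw [det_mul, Vale.Agent.P007.cast_det, hPd, h1]; simp⟩,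
        X.ext' fun v => (mem_pr _ v).trans ?_⟩
      rw [h, mem_span_rows,
        ← Vale.Agent.P007.latM_unimodular (by rw [hPd]; exact isUnit_one.neg : IsUnit P.det) M]
      rfl

/-- The lattice of a coset. -/
noncomputable def e0 (x : Vale.Agent.P007.X n) : X n :=
  Quotient.liftOn x (std n).mul fun _ _ hab => pr_eq_iff.2 (Quotient.sound hab)

theorem e0_bij : Function.Bijective (e0 (n := n)) := by
  constructor
  · intro x y h
    obtain ⟨g, rfl⟩ := Vale.Agent.P007.pt_surjective x
    obtain ⟨k, rfl⟩ := Vale.Agent.P007.pt_surjective y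
    exact pr_eq_iff.1 h
  · intro Λ
    obtain ⟨g, rfl⟩ := pr_surj Λ
    exact ⟨pt g, rfl⟩

/-- The coset space is homeomorphic to the space of lattices. -/
noncomputable def e (n : ℕ) : Vale.Agent.P007.X n ≃ₜ X n where
  toEquiv := Equiv.ofBijective e0 e0_bij
  continuous_toFun :=
    Vale.Agent.P007.isOpenQuotientMap_pt.isQuotientMap.continuous_iff.2 continuous_coinduced_rng
  continuous_invFun := by
    refine continuous_coinduced_dom.2 ?_
    have h : (Equiv.ofBijective e0 e0_bij).invFun ∘ (std n).mul = pt := by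
      funext g
      exact (Equiv.ofBijective e0 e0_bij).symm_apply_apply (pt g)
    rw [h]
    exact Vale.Agent.P007.continuous_pt

theorem e_pt (g : G n) : e n (pt g) = (std n).mul g := rfl

theorem e_tr (g : G n) (x : Vale.Agent.P007.X n) : e n (tr g x) = (e n x).mul g := by
  obtain ⟨k, rfl⟩ := Vale.Agent.P007.pt_surjective x
  exact X.mul_mul _ _ _

theorem flow_eq (u : Fin (n - 1) → ℝ) (Λ : X n) : flow u Λ = Λ.mul (aexp u) := rfl

theorem e_flow (u : Fin (n - 1) → ℝ) (x : Vale.Agent.P007.X n) :
    e n (tr (aexp u) x) = flow u (e n x) := e_tr _ x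

instance : BorelSpace (X n) := ⟨rfl⟩

instance : T2Space (X n) := (e n).t2Space

instance : SecondCountableTopology (X n) := (e n).symm.secondCountableTopology

instance : LocallyCompactSpace (X n) := (e n).symm.isOpenEmbedding.locallyCompactSpace

instance : TopologicalSpace.MetrizableSpace (X n) :=
  TopologicalSpace.metrizableSpace_of_t3_secondCountable _

theorem continuous_mul : Continuous fun p : X n × G n => p.1.mul p.2 := by
  have h : (fun p : X n × G n => p.1.mul p.2) = fun p => e n (tr p.2 ((e n).symm p.1)) := by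
    funext p
    rw [e_tr, Homeomorph.apply_symm_apply]
  rw [h]
  exact (e n).continuous.comp (Vale.Agent.P007.continuous_tr_uncurry.comp
    (((e n).symm.continuous.comp continuous_fst).prodMk continuous_snd))

theorem continuous_xmul {Y : Type} [TopologicalSpace Y] {f : Y → X n} {g : Y → G n}
    (hf : Continuous f) (hg : Continuous g) : Continuous fun y => (f y).mul (g y) :=
  continuous_mul.comp (hf.prodMk hg)

theorem continuous_mul' (g : G n) : Continuous fun Λ : X n => Λ.mul g :=
  continuous_xmul continuous_id continuous_const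

theorem exists_mul (x y : X n) : ∃ h : G n, y = x.mul h := by
  obtain ⟨a, rfl⟩ := pr_surj x
  obtain ⟨b, rfl⟩ := pr_surj y
  exact ⟨a⁻¹ * b, by rw [← X.mul_mul, mul_inv_cancel_left]⟩

theorem flow_flow : Flow (flow (n := n)) where
  zero z := by rw [flow_eq, Vale.Agent.P007.aexp_zero, X.mul_one]
  add u v z := by
    rw [flow_eq, flow_eq, flow_eq, add_comm, Vale.Agent.P007.aexp_add, X.mul_mul]
  cont := continuous_xmul (g := fun p : X n × (Fin (n - 1) → ℝ) => aexp p.2) continuous_fst
    (Vale.Agent.P007.continuous_aexp.comp continuous_snd)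

theorem flow_diag (k : ℕ) : Flow (diagFlow (n := n) (k := k)) where
  zero z := funext fun l => flow_flow.zero (z l)
  add u v z := funext fun l => flow_flow.add u v (z l)
  cont := continuous_pi fun l =>
    continuous_xmul (f := fun p : (Fin k → X n) × (Fin (n - 1) → ℝ) => p.1 l)
      (g := fun p => aexp p.2) ((continuous_apply l).comp continuous_fst)
      (Vale.Agent.P007.continuous_aexp.comp continuous_snd)

theorem flow_F : Flow fun (u : Fin (n - 1) → ℝ) (x : Vale.Agent.P007.X n) => tr (aexp u) x where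
  zero z := by rw [Vale.Agent.P007.aexp_zero, Vale.Agent.P007.tr_one]
  add := Vale.Agent.P007.tr_aexp_add
  cont := Vale.Agent.P007.continuous_tr_uncurry.comp
    (continuous_fst.prodMk (Vale.Agent.P007.continuous_aexp.comp continuous_snd))

/-- The action of `SL_n(ℝ)` on `X_n`. -/
noncomputable def act1 {m : Measure (X n)} (hm : IsHaar m) : Act (G n) (X n) m where
  act g Λ := Λ.mul g
  one := X.mul_one
  mul g h z := X.mul_mul z g h
  cont := continuous_mul
  trans := exists_mul
  inv := hm.2

theorem pi_map_eq {k : ℕ} {μ : Measure (X n)} [IsProbabilityMeasure μ] (f : Fin k → X n → X n)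
    (hf : ∀ l, Measurable (f l)) (h : ∀ l, μ.map (f l) = μ) :
    (Measure.pi fun _ : Fin k => μ).map (fun z l => f l (z l)) = Measure.pi fun _ => μ :=
  (measurePreserving_pi (fun _ : Fin k => μ) (fun _ => μ) fun l => ⟨hf l, h l⟩).map_eq

/-- The action of `SL_n(ℝ)^k` on `X_n^k`. -/
noncomputable def actk {m : Measure (X n)} (hm : IsHaar m) (k : ℕ) :
    Act (Fin k → G n) (Fin k → X n) (Measure.pi fun _ => m) where
  act g z l := (z l).mul (g l)
  one z := funext fun l => X.mul_one (z l)
  mul g h z := funext fun l => X.mul_mul (z l) (g l) (h l)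
  cont := continuous_pi fun l =>
    continuous_xmul (f := fun p : (Fin k → X n) × (Fin k → G n) => p.1 l) (g := fun p => p.2 l)
      ((continuous_apply l).comp continuous_fst) ((continuous_apply l).comp continuous_snd)
  trans x y := by
    choose h hh using fun l => exists_mul (x l) (y l)
    exact ⟨h, funext hh⟩
  inv g := by
    have := hm.1
    exact pi_map_eq (fun l Λ => Λ.mul (g l)) (fun l => (continuous_mul' _).measurable)
      fun l => hm.2 _

theorem major (hn : 2 ≤ n) {m : Measure (X n)} (hm : IsHaar m) : ∃ u : Fin (n - 1) → ℝ,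
    Major (flow u) m ∧ ∀ k, Major (diagFlow (k := k) u) (Measure.pi fun _ => m) := by
  have := hm.1
  obtain ⟨β, u, hβ, hu⟩ := exists_regular (n := n) (by omega)
  refine ⟨u, ?_, fun k => ?_⟩
  · have h := (act1 hm).major (gen_da hn hβ)
    rw [← hu] at h
    exact h
  · have h := (actk hm k).major (gen_pi hn hβ k)
    rw [← hu] at h
    exact h

theorem me : Measurable (e n) := (e n).continuous.measurable

theorem me' : Measurable (e n).symm := (e n).symm.continuous.measurable

theorem map_e_symm (μ : Measure (X n)) : (μ.map (e n).symm).map (e n) = μ := by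
  rw [Measure.map_map me me', Homeomorph.self_comp_symm, Measure.map_id]

theorem map_symm_e (μ : Measure (Vale.Agent.P007.X n)) : (μ.map (e n)).map (e n).symm = μ := by
  rw [Measure.map_map me' me, Homeomorph.symm_comp_self, Measure.map_id]

theorem isHaar_iff {m : Measure (Vale.Agent.P007.X n)} :
    IsHaar (m.map (e n)) ↔ Vale.Agent.P007.IsInvProb m := by
  have key : ∀ g : G n, (m.map (e n)).map (fun Λ => Λ.mul g) = (m.map (tr g)).map (e n) := by
    intro g
    rw [Measure.map_map (continuous_mul' g).measurable me,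
      Measure.map_map me (Vale.Agent.P007.continuous_tr g).measurable]
    congr 1
    funext x
    exact (e_tr g x).symm
  constructor
  · rintro ⟨h1, h2⟩
    refine ⟨?_, fun g => ?_⟩
    · change IsProbabilityMeasure m
      rw [← map_symm_e m]
      exact Measure.isProbabilityMeasure_map me'.aemeasurable
    · change m.map (tr g) = m
      rw [← map_symm_e (m.map (tr g)), ← key, h2, map_symm_e]
  · rintro ⟨h1, h2⟩
    have h3 : IsProbabilityMeasure m := h1
    refine ⟨Measure.isProbabilityMeasure_map me.aemeasurable, fun g => ?_⟩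
    have h4 : m.map (tr g) = m := h2 g
    rw [key, h4]

theorem CcTo.map {Z Z' : Type} [TopologicalSpace Z] [MeasurableSpace Z] [BorelSpace Z]
    [TopologicalSpace Z'] [MeasurableSpace Z'] [BorelSpace Z'] (φ : Z ≃ₜ Z') {μ : ℕ → Measure Z}
    {m : Measure Z} (h : CcTo μ m) : CcTo (fun i => (μ i).map φ) (m.map φ) := by
  intro f
  have h1 : ∀ ν : Measure Z, ∫ x, f x ∂ν.map φ = ∫ x, f (φ x) ∂ν := fun ν =>
    integral_map φ.continuous.measurable.aemeasurable f.continuous.aestronglyMeasurable
  simp only [h1]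
  exact h ⟨⟨fun x => f (φ x), f.continuous.comp φ.continuous⟩,
    f.hasCompactSupport.comp_homeomorph φ⟩

theorem weakTo_iff {μ : ℕ → Measure (Vale.Agent.P007.X n)} {m : Measure (Vale.Agent.P007.X n)}
    [∀ i, IsProbabilityMeasure (μ i)] [IsProbabilityMeasure m] :
    WeakTo (fun i => (μ i).map (e n)) (m.map (e n)) ↔ Vale.Agent.P007.WeakTo μ m := by
  constructor
  · intro h
    have h1 := CcTo.map (e n).symm h.1
    simp only [map_symm_e] at h1
    exact Vale.Agent.P007.Koopman.weakTo_of_Cc μ m h1
  · intro h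
    have : IsProbabilityMeasure (m.map (e n)) := Measure.isProbabilityMeasure_map me.aemeasurable
    exact CcTo.weakTo (Eventually.of_forall fun i =>
      Measure.isProbabilityMeasure_map me.aemeasurable) (CcTo.map (e n) h.1)

theorem existsUnique_haar (hn : 1 ≤ n) : ∃! m : Measure (X n), IsHaar m := by
  obtain ⟨m, hm⟩ := Vale.Agent.P007.exists_invProb' n hn
  refine ⟨Measure.map (e n) m, isHaar_iff.2 hm, fun m' hm' => ?_⟩
  rw [← map_e_symm m'] at hm' ⊢
  exact congrArg (Measure.map (e n)) (Vale.Agent.P007.R.unique_inv _ _ (isHaar_iff.1 hm') hm)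

end Vale.Agent.N007
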