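import Mathlib

/-! The space of lattices, packets of compact torus orbits, and the notions of equidistribution. -/

open MeasureTheory Matrix NumberField Filter Topology
open scoped nonZeroDivisors ENNReal CompactlySupported BoundedContinuousFunction

namespace Vale.Agent.N007

variable {n : ℕ}

/-- `L` is a lattice of covolume one in `ℝ^n`. -/
structure Unimodular (L : Submodule ℤ (Fin n → ℝ)) : Prop where
  discrete : DiscreteTopology L
  span : Submodule.span ℝ (L : Set (Fin n → ℝ)) = ⊤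
  covol : ZLattice.covolume L = 1

theorem span_rows {M : Matrix (Fin n) (Fin n) ℝ} (hM : M.det ≠ 0) :
    DiscreteTopology (Submodule.span ℤ (Set.range M.row)) ∧
    Submodule.span ℝ (Submodule.span ℤ (Set.range M.row) : Set (Fin n → ℝ)) = ⊤ ∧
    ZLattice.covolume (Submodule.span ℤ (Set.range M.row)) = |M.det| := by
  classical
  have hu : IsUnit M := (isUnit_iff_isUnit_det M).2 (isUnit_iff_ne_zero.2 hM)
  let b := basisOfPiSpaceOfLinearIndependent (linearIndependent_rows_iff_isUnit.2 hu)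
  have hb : ⇑b = M.row := coe_basisOfPiSpaceOfLinearIndependent _
  rw [← hb]
  refine ⟨inferInstance, IsZLattice.span_top, ?_⟩
  rw [ZLattice.covolume_eq_measure_fundamentalDomain _ volume (ZSpan.isAddFundamentalDomain b _),
    ZSpan.volume_real_fundamentalDomain, hb]
  rfl

theorem unimodular_iff {L : Submodule ℤ (Fin n → ℝ)} : Unimodular L ↔
    ∃ M : Matrix (Fin n) (Fin n) ℝ, |M.det| = 1 ∧ L = Submodule.span ℤ (Set.range M.row) := by
  constructor
  · rintro ⟨h1, h2, h3⟩
    have : IsZLattice ℝ L := ⟨h2⟩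
    have := ZLattice.module_free ℝ L
    have := ZLattice.module_finite ℝ L
    let b := Module.finBasisOfFinrankEq ℤ L (n := n) (by rw [ZLattice.rank ℝ L]; simp)
    refine ⟨Matrix.of ((↑) ∘ b), by rw [← ZLattice.covolume_eq_det L b, h3], ?_⟩
    conv_lhs => rw [← b.ofZLatticeBasis_span ℝ]
    congr 2
    funext i
    exact b.ofZLatticeBasis_apply ℝ L i
  · rintro ⟨M, hM, rfl⟩
    have h := span_rows (M := M) (fun h => by simp [h] at hM)
    exact ⟨h.1, h.2.1, h.2.2.trans hM⟩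

theorem map_span_rows (M N : Matrix (Fin n) (Fin n) ℝ) :
    (Submodule.span ℤ (Set.range M.row)).map (N.vecMulLinear.restrictScalars ℤ) =
      Submodule.span ℤ (Set.range (M * N).row) := by
  rw [Submodule.map_span, ← Set.range_comp]
  rfl

/-- `X_n`: the lattices of covolume one in `ℝ^n` (row vectors). -/
def X (n : ℕ) : Type := {L : Submodule ℤ (Fin n → ℝ) // Unimodular L}

/-- The right action: `Λ g = {v g : v ∈ Λ}`. -/
noncomputable def X.mul (Λ : X n) (g : SpecialLinearGroup (Fin n) ℝ) : X n :=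
  ⟨Λ.1.map (g.1.vecMulLinear.restrictScalars ℤ), by
    obtain ⟨M, hM, h⟩ := unimodular_iff.1 Λ.2
    exact unimodular_iff.2 ⟨M * g.1, by rw [det_mul, g.2, mul_one, hM], by rw [h, map_span_rows]⟩⟩

/-- The lattice `ℤ^n`. -/
def std (n : ℕ) : X n :=
  ⟨Submodule.span ℤ (Set.range (1 : Matrix (Fin n) (Fin n) ℝ).row),
    unimodular_iff.2 ⟨1, by simp, rfl⟩⟩

/-- The quotient topology for `SL_n(ℝ) → X_n`, `g ↦ ℤ^n g`. -/
noncomputable instance : TopologicalSpace (X n) := .coinduced (std n).mul inferInstance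

/-- The Borel sets. -/
noncomputable instance : MeasurableSpace (X n) := borel (X n)

/-- `m` is an `SL_n(ℝ)`-invariant probability on `X_n`. -/
def IsHaar (m : Measure (X n)) : Prop :=
  IsProbabilityMeasure m ∧ ∀ g, m.map (fun Λ => Λ.mul g) = m

/-- `(u_1, …, u_{n-1}, -(u_1 + … + u_{n-1}))`. -/
def expo (u : Fin (n - 1) → ℝ) (j : Fin n) : ℝ :=
  if h : j.1 < n - 1 then u ⟨j.1, h⟩ else -∑ i, u i

/-- The action of `A_n` in the coordinates `u_1, …, u_{n-1}`: `Λ ↦ Λ diag(e^{u_1}, …, e^{u_n})`. -/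
noncomputable def flow (u : Fin (n - 1) → ℝ) (Λ : X n) : X n :=
  Λ.mul ⟨diagonal fun j => Real.exp (expo u j), by
    rw [det_diagonal, ← Real.exp_sum, Real.exp_eq_one_iff]
    cases n <;> simp [Fin.sum_univ_castSucc, expo]⟩

/-- The diagonal action of `A_n` on `X_n^k`. -/
noncomputable def diagFlow {k : ℕ} (u : Fin (n - 1) → ℝ) (z : Fin k → X n) : Fin k → X n :=
  fun l => flow u (z l)

/-- The volume of an `A_n`-orbit `S` for `du_1 ⋯ du_{n-1}`: the covolume of its period lattice. -/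
noncomputable def vol (S : Set (X n)) : ℝ :=
  ZLattice.covolume (Submodule.span ℤ {u : Fin (n - 1) → ℝ | ∀ Λ ∈ S, flow u Λ = Λ})

section
variable {U Z : Type} [MeasurableSpace Z]

/-- The orbit of `z` under the maps `T u`. -/
def orbit (T : U → Z → Z) (z : Z) : Set Z := Set.range fun u => T u z

/-- `ν` is a probability carried by `S` and invariant under the maps `T u`. -/
def IsOrbitProb (T : U → Z → Z) (S : Set Z) (ν : Measure Z) : Prop :=
  IsProbabilityMeasure ν ∧ ν Sᶜ = 0 ∧ ∀ u, ν.map (T u) = ν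

/-- No mass escapes: for each `ε > 0` a compact set has mass at least `1 - ε` for all large `i`. -/
def NoEscape [TopologicalSpace Z] (μ : ℕ → Measure Z) : Prop :=
  ∀ ε : ℝ, 0 < ε → ∃ C : Set Z, IsCompact C ∧ ∀ᶠ i in atTop, 1 - ε ≤ (μ i).real C

/-- Weak convergence: on `C_c`, and no mass escapes. -/
def WeakTo [TopologicalSpace Z] (μ : ℕ → Measure Z) (m : Measure Z) : Prop :=
  (∀ f : C_c(Z, ℝ), Tendsto (fun i => ∫ x, f x ∂μ i) atTop (𝓝 (∫ x, f x ∂m))) ∧ NoEscape μ

end

/-- `μ = ∑ vol(S) ν_S / ∑ vol(S)`, sums over the orbits `S ∈ P`. -/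
def IsAverage (P : Set (Set (X n))) (μ : Measure (X n)) : Prop :=
  ∃ ν : Set (X n) → Measure (X n), (∀ S ∈ P, IsOrbitProb flow S (ν S)) ∧
    μ = (∑ᶠ S ∈ P, ENNReal.ofReal (vol S))⁻¹ • ∑ᶠ S ∈ P, ENNReal.ofReal (vol S) • ν S

section
variable {K : Type} [Field K] [NumberField K] {O : Subring (𝓞 K)}

/-- `|Disc O| = |Disc K| [𝒪_K : O]^2`. -/
noncomputable def disc (O : Subring (𝓞 K)) : ℕ := (discr K).natAbs * O.toAddSubgroup.index ^ 2

/-- The invertible fractional `O`-ideals. -/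
abbrev Idl (O : Subring (𝓞 K)) : Type := (FractionalIdeal O⁰ K)ˣ

/-- The set of the elements of an invertible ideal. -/
def Idl.set (I : Idl O) : Set K := {x | x ∈ I.1}

/-- `Pic(O)`: invertible fractional ideals modulo principal ones. -/
abbrev Pic (O : Subring (𝓞 K)) : Type := ClassGroup O

/-- `K` is totally real of degree `n` and `O ⊆ 𝒪_K` is an order (a subring of full rank). -/
structure IsOrder (n : ℕ) (O : Subring (𝓞 K)) : Prop where
  real : IsTotallyReal K
  deg : Module.finrank ℚ K = n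
  rank : Module.finrank ℤ O = n

/-- `O` is an order (so that `K` is its field of fractions), and `rep c` is an invertible fractional
`O`-ideal in the class `c ∈ Pic(O)`. -/
structure IsReps (n : ℕ) (rep : ClassGroup O → (FractionalIdeal O⁰ K)ˣ) : Prop where
  order : IsOrder n O
  [frac : IsFractionRing O K]
  mk_rep : ∀ c, ClassGroup.mk K (rep c) = c

/-- The lattice `σ(I)`. -/
def emb (σ : Fin n ≃ (K →+* ℝ)) (I : Set K) : Submodule ℤ (Fin n → ℝ) :=
  Submodule.span ℤ {v | ∃ x ∈ I, v = fun j => σ j x}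

/-- `Λ = Λ_I w`, where `Λ_I = covol(σ(I))^{-1/n} σ(I)`. -/
def IsPoint (σ : Fin n ≃ (K →+* ℝ)) (I : Set K) (w : Fin n → ℤˣ) (Λ : X n) : Prop :=
  ∀ v, v ∈ Λ.1 ↔ ∃ y ∈ emb σ I,
    v = fun j => ZLattice.covolume (emb σ I) ^ (-(1 : ℝ) / n) * y j * (w j : ℤ)

/-- The packet: the set of the orbits `Λ_I w A_n`, `I` one of the representatives. -/
def packet (σ : Fin n ≃ (K →+* ℝ)) (rep : Pic O → Idl O) : Set (Set (X n)) :=
  {S | ∃ c w Λ, IsPoint σ (rep c).set w Λ ∧ S = orbit flow Λ}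

/-- `|Disc (O ∩ F)| ≥ N` for every subfield `F ≠ ℚ` of `K` (`F = K` included). -/
def SubGe (O : Subring (𝓞 K)) (N : ℕ) : Prop :=
  ∀ F : IntermediateField ℚ K, F ≠ ⊥ → N ≤ disc (O.comap (algebraMap (𝓞 F) (𝓞 K)))

/-- `χ` is a nontrivial character of `Pic(O)`. -/
structure IsChar (χ : Pic O → ℂ) : Prop where
  one : χ 1 = 1
  mul : ∀ a b, χ (a * b) = χ a * χ b
  ne : ∃ c, χ c ≠ 1

end

/-- A triple `(K, O, σ)` of degree `n` (`σ` an ordering of the real embeddings) with representatives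
of the classes. -/
structure Data (n : ℕ) where
  K : Type
  [fld : Field K]
  [nf : NumberField K]
  O : Subring (𝓞 K)
  σ : Fin n ≃ (K →+* ℝ)
  rep : Pic O → Idl O
  reps : IsReps n rep

attribute [instance] Data.fld Data.nf

/-- The assertion of Q1 in degree `n`. -/
def Q1 (n : ℕ) : Prop :=
  ∀ (T : ℕ → Data n) (μ : ℕ → Measure (X n)) (m : Measure (X n)),
    (∀ i, IsAverage (packet (T i).σ (T i).rep) (μ i)) → IsHaar m →
    Tendsto (fun i => disc (T i).O) atTop atTop → WeakTo μ m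

/-- Almost every single orbit equidistributes: there are parts `Q_i` of the `P_i`, of proportion
tending to one, such that `ν_{S_i} → m` weakly for all choices of orbits `S_i ∈ Q_i`. -/
def MostOrbits (P : ℕ → Set (Set (X n))) (m : Measure (X n)) : Prop :=
  ∃ Q : ℕ → Set (Set (X n)), (∀ i, Q i ⊆ P i) ∧
    Tendsto (fun i => ((Q i).ncard : ℝ) / (P i).ncard) atTop (𝓝 1) ∧
    ∀ ν : ℕ → Measure (X n), (∀ᶠ i in atTop, ∃ S ∈ Q i, IsOrbitProb flow S (ν i)) → WeakTo ν m

/-- Joint equidistribution: there are sets `E_i ⊆ X_n^k`, with `μ_i^k`-measure tending to one, of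
points with compact diagonal orbit, such that for all choices of `z_i ∈ E_i` the invariant
probabilities on the diagonal orbits `z_i A_n` converge weakly to `m^k`. -/
def MostTuples (k : ℕ) (μ : ℕ → Measure (X n)) (m : Measure (X n)) : Prop :=
  ∃ E : ℕ → Set (Fin k → X n),
    Tendsto (fun i => Measure.pi (fun _ => μ i) (E i)ᶜ) atTop (𝓝 0) ∧
    (∀ i, ∀ z ∈ E i, IsCompact (orbit diagFlow z) ∧
      ∃! ν, IsOrbitProb diagFlow (orbit diagFlow z) ν) ∧
    ∀ ν : ℕ → Measure (Fin k → X n),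
      (∀ᶠ i in atTop, ∃ z ∈ E i, IsOrbitProb diagFlow (orbit diagFlow z) (ν i)) →
        WeakTo ν (Measure.pi fun _ => m)

/-- Averages over the class group, for fixed signs `w_i`: with `ν_i(c)` the invariant probability of
`Λ_{I_c} w_i A_n`, the mean of `|ν_i(c)(f) - m(f)|` tends to zero, and so do the means of
`χ_i(c) ν_i(c)(f)` for nontrivial characters `χ_i`. -/
def Twists (T : ℕ → Data n) (m : Measure (X n)) : Prop :=
  ∀ (w : ℕ → Fin n → ℤˣ) (ν : ∀ i, Pic (T i).O → Measure (X n)),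
    (∀ i c, ∃ Λ, IsPoint (T i).σ ((T i).rep c).set (w i) Λ ∧
      IsOrbitProb flow (orbit flow Λ) (ν i c)) →
    ∀ f : X n →ᵇ ℝ,
      Tendsto (fun i => (∑ᶠ c, |∫ x, f x ∂ν i c - ∫ x, f x ∂m|) / Nat.card (Pic (T i).O))
        atTop (𝓝 0) ∧
      ∀ χ : ∀ i, Pic (T i).O → ℂ, (∀ᶠ i in atTop, IsChar (χ i)) →
        Tendsto (fun i => (∑ᶠ c, χ i c * (∫ x, f x ∂ν i c : ℝ)) / Nat.card (Pic (T i).O))
          atTop (𝓝 0)

end Vale.Agent.N007
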