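import Vale.Agent.N007.Defs
import Vale.Agent.P007.H11.Mix

/-! Ergodicity of one element for a transitive action, and weak convergence of probabilities. -/

open MeasureTheory Matrix Filter Topology
open scoped ENNReal CompactlySupported BoundedContinuousFunction

namespace Vale.Agent.N007

/-- A continuous transitive right action preserving the probability `M`. -/
structure Act (H Z : Type) [Group H] [TopologicalSpace H] [TopologicalSpace Z] [MeasurableSpace Z]
    (M : Measure Z) where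
  act : H → Z → Z
  one : ∀ z, act 1 z = z
  mul : ∀ g h z, act (g * h) z = act h (act g z)
  cont : Continuous fun p : Z × H => act p.2 p.1
  trans : ∀ x y, ∃ h, y = act h x
  inv : ∀ g, M.map (act g) = M

/-- The horospherical subgroups attached to `a` generate the group. -/
def Gen {H : Type} [Group H] [TopologicalSpace H] (a : H) : Prop :=
  ∀ S : Subgroup H, a ∈ S →
    (∀ b ∈ S, ∀ h, Tendsto (fun k : ℕ => (b ^ k)⁻¹ * h * b ^ k) atTop (𝓝 1) → h ∈ S) → ∀ g, g ∈ S

namespace Act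

variable {H Z : Type} [Group H] [TopologicalSpace H] [TopologicalSpace Z] [MeasurableSpace Z]
  {M : Measure Z} (A : Act H Z M)

theorem cont' (g : H) : Continuous (A.act g) :=
  A.cont.comp (continuous_id.prodMk continuous_const)

variable [BorelSpace Z]

theorem mp (g : H) : MeasurePreserving (A.act g) M M := ⟨(A.cont' g).measurable, A.inv g⟩

/-- The Koopman operator. -/
noncomputable def K (g : H) : Lp ℝ 2 M →ₗᵢ[ℝ] Lp ℝ 2 M :=
  Lp.compMeasurePreservingₗᵢ ℝ (A.act g) (A.mp g)

theorem K_coe (g : H) (f : Lp ℝ 2 M) : A.K g f =ᵐ[M] f ∘ A.act g :=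
  Lp.coeFn_compMeasurePreserving f (A.mp g)

theorem K_one (f : Lp ℝ 2 M) : A.K 1 f = f := by
  apply Lp.ext
  filter_upwards [A.K_coe 1 f] with x hx
  rw [hx, Function.comp_apply, A.one]

theorem K_mul (g h : H) (f : Lp ℝ 2 M) : A.K (g * h) f = A.K g (A.K h f) := by
  apply Lp.ext
  have h3 := (A.mp g).quasiMeasurePreserving.ae_eq_comp (A.K_coe h f)
  filter_upwards [A.K_coe (g * h) f, A.K_coe g (A.K h f), h3] with x hx1 hx2 hx3
  rw [hx1, hx2, hx3]
  simp only [Function.comp_apply]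
  rw [A.mul]

/-- The stabiliser of a vector. -/
def fix (f : Lp ℝ 2 M) : Subgroup H where
  carrier := {g | A.K g f = f}
  one_mem' := A.K_one f
  mul_mem' := by
    intro g h hg hh
    change A.K (g * h) f = f
    rw [A.K_mul, hh, hg]
  inv_mem' := by
    intro g hg
    change A.K g⁻¹ f = f
    conv_lhs => rw [← hg]
    rw [← A.K_mul, inv_mul_cancel, A.K_one]

variable [IsProbabilityMeasure M] [TopologicalSpace.MetrizableSpace Z] [SecondCountableTopology Z]
  [LocallyCompactSpace Z]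

theorem K_cont (f : Lp ℝ 2 M) : Continuous fun g => A.K g f := by
  have h : Continuous fun g : H => (⟨A.act g, A.cont' g⟩ : C(Z, Z)) :=
    ContinuousMap.continuous_of_continuous_uncurry _
      (A.cont.comp (continuous_snd.prodMk continuous_fst))
  exact Continuous.compMeasurePreservingLp (f := fun _ : H => f) continuous_const h
    (fun g => A.mp g) (by norm_num)

/-- The Mautner phenomenon. -/
theorem mautner (f : Lp ℝ 2 M) {b : H} (hb : b ∈ A.fix f) {h : H}
    (hh : Tendsto (fun k : ℕ => (b ^ k)⁻¹ * h * b ^ k) atTop (𝓝 1)) : h ∈ A.fix f := by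
  have h1 := ((A.K_cont f).tendsto 1).comp hh
  rw [A.K_one] at h1
  have h2 : ∀ k : ℕ, ‖A.K ((b ^ k)⁻¹ * h * b ^ k) f - f‖ = ‖A.K h f - f‖ := by
    intro k
    have h3 : A.K (b ^ k) f = f := (A.fix f).pow_mem hb k
    have h4 : A.K (b ^ k)⁻¹ f = f := (A.fix f).inv_mem h3
    rw [A.K_mul, h3, A.K_mul, ← (A.K (b ^ k)⁻¹).norm_map (A.K h f - f), map_sub, h4]
  have h5 := tendsto_iff_norm_sub_tendsto_zero.1 h1
  simp only [Function.comp_apply, h2] at h5
  exact sub_eq_zero.1 (norm_eq_zero.1 (tendsto_nhds_unique tendsto_const_nhds h5))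

variable [IsTopologicalGroup H] [LocallyCompactSpace H] [SecondCountableTopology H]

/-- Invariant square integrable functions are constant. -/
theorem const_of_invariant (f : Lp ℝ 2 M) (h : ∀ g, A.K g f = f) :
    ∃ c : ℝ, f =ᵐ[M] fun _ => c := by
  borelize H
  let η : Measure H := Measure.haar
  have hmu : Measurable fun p : Z × H => A.act p.2 p.1 := A.cont.measurable
  have hc : ∀ (E : Set Z) (x y : Z), η {g | A.act g x ∈ E} = η {g | A.act g y ∈ E} := by
    intro E x y
    obtain ⟨k, rfl⟩ := A.trans x y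
    have h1 : {g : H | A.act g (A.act k x) ∈ E} = (fun g => k * g) ⁻¹' {g | A.act g x ∈ E} := by
      ext g
      simp only [Set.mem_ofPred_eq, Set.mem_preimage, A.mul]
    rw [h1, measure_preimage_mul]
  have hfib : ∀ (E : Set Z), MeasurableSet E → ∀ x : Z,
      η {g | A.act g x ∈ E} = M E * η Set.univ := by
    intro E hE x
    have hS : MeasurableSet ((fun p : Z × H => A.act p.2 p.1) ⁻¹' E) := hmu hE
    have h1 : (M.prod η) ((fun p : Z × H => A.act p.2 p.1) ⁻¹' E) = η {g | A.act g x ∈ E} := by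
      rw [Measure.prod_apply hS]
      have h2 : ∀ y : Z, η (Prod.mk y ⁻¹' ((fun p : Z × H => A.act p.2 p.1) ⁻¹' E)) =
          η {g | A.act g x ∈ E} := fun y => hc E y x
      simp only [h2, lintegral_const, measure_univ, mul_one]
    rw [← h1, Measure.prod_apply_symm hS]
    have h3 : ∀ g : H, M ((fun y => (y, g)) ⁻¹' ((fun p : Z × H => A.act p.2 p.1) ⁻¹' E)) = M E :=
      fun g => (A.mp g).measure_preimage hE.nullMeasurableSet
    simp only [h3, lintegral_const]
  have hfm : Measurable f := (Lp.stronglyMeasurable f).measurable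
  let S : Set (Z × H) := {p | f (A.act p.2 p.1) = f p.1}ᶜ
  have hS : MeasurableSet S :=
    (measurableSet_eq_fun (hfm.comp hmu) (hfm.comp measurable_fst)).compl
  have h1 : (M.prod η) S = 0 := by
    rw [Measure.prod_apply_symm hS]
    have h2 : ∀ g : H, M ((fun y => (y, g)) ⁻¹' S) = 0 := by
      intro g
      have h3 := A.K_coe g f
      rw [h g] at h3
      have h4 : (fun y => (y, g)) ⁻¹' S = {y | ¬ (f y = (f ∘ A.act g) y)} := by
        ext y
        simp only [S, Set.mem_preimage, Set.mem_compl_iff, Set.mem_ofPred_eq, Function.comp_apply]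
        exact not_congr eq_comm
      rw [h4]
      exact h3
    simp only [h2, lintegral_zero]
  rw [Measure.measure_prod_null hS] at h1
  obtain ⟨x₀, hx₀⟩ := h1.exists
  refine ⟨f x₀, ?_⟩
  let E : Set Z := {x | f x = f x₀}ᶜ
  have hE : MeasurableSet E := (measurableSet_eq_fun hfm measurable_const).compl
  have h5 : η {g | A.act g x₀ ∈ E} = 0 := hx₀
  rw [hfib E hE x₀, mul_eq_zero] at h5
  refine h5.resolve_right ?_
  rw [Measure.measure_univ_eq_zero]
  exact NeZero.ne _

end Act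

section erg

open Vale.Agent.P007.H11

variable {Z : Type} [MeasurableSpace Z] {M : Measure Z} {T : Z → Z}

theorem mean_erg [IsProbabilityMeasure M] (hT : MeasurePreserving T M M) {f : Z → ℝ}
    (hf : MemLp f 2 M) : ∃ P : Lp ℝ 2 M, Lp.compMeasurePreservingₗᵢ ℝ T hT P = P ∧
      Tendsto (fun N => ∫ x, |av T f N x - P x| ∂M) atTop (𝓝 0) := by
  set U : Lp ℝ 2 M →ₗᵢ[ℝ] Lp ℝ 2 M := Lp.compMeasurePreservingₗᵢ ℝ T hT with hU
  set V : Lp ℝ 2 M →L[ℝ] Lp ℝ 2 M := U.toContinuousLinearMap with hV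
  have h1 := V.tendsto_birkhoffAverage_orthogonalProjection U.norm_toContinuousLinearMap_le
    (hf.toLp f)
  set P := (V.eqLocus (1 : Lp ℝ 2 M →L[ℝ] Lp ℝ 2 M)).orthogonalProjectionOnto (hf.toLp f) with hP
  refine ⟨P, P.2, squeeze_zero (fun N => integral_nonneg fun x => abs_nonneg _) (fun N => ?_)
    (tendsto_iff_norm_sub_tendsto_zero.1 h1)⟩
  obtain ⟨h, hs⟩ := toLp_sum hT hf N
  have h3 : birkhoffAverage ℝ V _root_.id N (hf.toLp f) = (N : ℝ)⁻¹ • h.toLp _ := by
    rw [← hs]
    rfl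
  set Y := birkhoffAverage ℝ V _root_.id N (hf.toLp f) - (P : Lp ℝ 2 M) with hY
  have h4 : (fun x => |av T f N x - (P : Lp ℝ 2 M) x|) =ᵐ[M] fun x => ‖Y x‖ := by
    rw [hY, h3]
    filter_upwards [Lp.coeFn_smul (N : ℝ)⁻¹ (h.toLp _), h.coeFn_toLp,
      Lp.coeFn_sub ((N : ℝ)⁻¹ • h.toLp _) (P : Lp ℝ 2 M)] with x a b c
    rw [c, Pi.sub_apply, a, Pi.smul_apply, b]
    rfl
  rw [integral_congr_ae h4, integral_norm_eq_lintegral_enorm (Lp.aestronglyMeasurable Y),
    ← eLpNorm_one_eq_lintegral_enorm, Lp.norm_def]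
  exact ENNReal.toReal_mono (Lp.eLpNorm_ne_top Y)
    (eLpNorm_le_eLpNorm_of_exponent_le (by norm_num) (Lp.aestronglyMeasurable Y))

variable [TopologicalSpace Z] [BorelSpace Z]

/-- The ergodic average as a bounded continuous function. -/
noncomputable def avB (hT : Continuous T) (f : Z →ᵇ ℝ) (N : ℕ) : Z →ᵇ ℝ :=
  (N : ℝ)⁻¹ • ∑ k ∈ Finset.range N, f.compContinuous ⟨T^[k], hT.iterate k⟩

omit [MeasurableSpace Z] [BorelSpace Z] in
theorem avB_apply (hT : Continuous T) (f : Z →ᵇ ℝ) (N : ℕ) (x : Z) :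
    avB hT f N x = av T f N x := by
  simp [avB, av]

theorem integral_avB (hT : Continuous T) (f : Z →ᵇ ℝ) {N : ℕ} (hN : N ≠ 0) (ν : Measure Z)
    [IsProbabilityMeasure ν] (hν : ν.map T = ν) : ∫ x, avB hT f N x ∂ν = ∫ x, f x ∂ν := by
  have hmp : MeasurePreserving T ν ν := ⟨hT.measurable, hν⟩
  have h3 : ∀ j ∈ Finset.range N, ∫ x, f (T^[j] x) ∂ν = ∫ x, f x ∂ν := by
    intro j _
    have h4 := (hmp.iterate j).map_eq
    conv_rhs => rw [← h4]
    rw [integral_map (hmp.iterate j).measurable.aemeasurable f.continuous.aestronglyMeasurable]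
  have h0 : ∀ j ∈ Finset.range N, Integrable (fun x => f (T^[j] x)) ν := fun j _ =>
    (hmp.iterate j).integrable_comp_of_integrable (f.integrable ν)
  simp only [avB_apply, av]
  rw [integral_const_mul, integral_finsetSum _ h0, Finset.sum_congr rfl h3,
    Finset.sum_const, Finset.card_range, nsmul_eq_mul, ← mul_assoc,
    inv_mul_cancel₀ (Nat.cast_ne_zero.2 hN), one_mul]

theorem abs_sub_le_avB (hT : Continuous T) (f : Z →ᵇ ℝ) {N : ℕ} (hN : N ≠ 0) (ν : Measure Z)
    [IsProbabilityMeasure ν] (hν : ν.map T = ν) (c : ℝ) :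
    |∫ x, f x ∂ν - c| ≤ ∫ x, |avB hT f N x - c| ∂ν := by
  refine le_trans (le_of_eq ?_) abs_integral_le_integral_abs
  rw [integral_sub ((avB hT f N).integrable ν) (integrable_const c), integral_avB hT f hN ν hν]
  simp

end erg

/-- `T` is ergodic for `M`, in the form used below: every bounded continuous `f` has a majorant `g`
of small integral with `|ν(f) - M(f)| ≤ ν(g)` for all `T`-invariant probabilities `ν`. -/
def Major {Z : Type} [TopologicalSpace Z] [MeasurableSpace Z] (T : Z → Z) (M : Measure Z) : Prop :=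
  ∀ (f : Z →ᵇ ℝ) (ε : ℝ), 0 < ε → ∃ g : Z →ᵇ ℝ, (∀ z, 0 ≤ g z) ∧ ∫ z, g z ∂M < ε ∧
    ∀ ν : Measure Z, IsProbabilityMeasure ν → ν.map T = ν →
      |∫ z, f z ∂ν - ∫ z, f z ∂M| ≤ ∫ z, g z ∂ν

theorem Act.major {H Z : Type} [Group H] [TopologicalSpace H] [TopologicalSpace Z]
    [MeasurableSpace Z] {M : Measure Z} (A : Act H Z M) [BorelSpace Z] [IsProbabilityMeasure M]
    [TopologicalSpace.MetrizableSpace Z] [SecondCountableTopology Z] [LocallyCompactSpace Z]
    [IsTopologicalGroup H] [LocallyCompactSpace H] [SecondCountableTopology H] {a : H}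
    (ha : Gen a) : Major (A.act a) M := by
  intro f ε hε
  obtain ⟨P, hP, hl⟩ := mean_erg (A.mp a) (f.memLp_top.mono_exponent le_top : MemLp f 2 M)
  obtain ⟨c, hc⟩ := A.const_of_invariant P
    (ha (A.fix P) hP fun b hb h hh => A.mautner P hb hh)
  have h1 : ∀ N, ∫ x, |Vale.Agent.P007.H11.av (A.act a) f N x - P x| ∂M =
      ∫ x, |avB (A.cont' a) f N x - c| ∂M := by
    intro N
    refine integral_congr_ae ?_
    filter_upwards [hc] with x hx
    rw [hx, avB_apply]
  simp only [h1] at hl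
  have h2 : ∫ z, f z ∂M = c := by
    refine sub_eq_zero.1 (abs_nonpos_iff.1 (ge_of_tendsto hl ?_))
    filter_upwards [eventually_ne_atTop 0] with N hN
    exact abs_sub_le_avB _ f hN M (A.inv a) c
  obtain ⟨N, hN, hN'⟩ := ((eventually_ne_atTop 0).and (hl.eventually (gt_mem_nhds hε))).exists
  refine ⟨|avB (A.cont' a) f N - BoundedContinuousFunction.const Z c|, fun z => abs_nonneg _,
    hN', fun ν hν hν' => ?_⟩
  rw [h2]
  exact abs_sub_le_avB _ f hN ν hν' c

section gen

open Vale.Agent.P007 Vale.Agent.P007.Mautner Vale.Agent.P007.R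

variable {n : ℕ}

theorem mem_of_tv (hn : 2 ≤ n) (S : Subgroup (G n))
    (h : ∀ (i j : Fin n) (hij : i ≠ j) (c : ℝ), tv hij c ∈ S) (g : G n) : g ∈ S := by
  have : Nontrivial (Fin n) := Fin.nontrivial_iff_two_le.2 hn
  refine SpecialLinearGroup.diagonal_transvection_induction' (fun M : G n => M ∈ S) g ?_ ?_ ?_
  · intro i j hij c hc
    rw [diag2n_eq _ c 1 hc one_ne_zero]
    exact mul_mem (mul_mem (mul_mem (h _ _ _ _) (h _ _ _ _)) (h _ _ _ _)) (h _ _ _ _)
  · intro i j hij c
    exact h i j hij c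
  · intro M N hM hN
    exact mul_mem hM hN

theorem exists_conj {β : Fin n → ℝ} (hβ : Function.Injective β) {i j : Fin n} (hij : i ≠ j)
    (c : ℝ) : ∃ b : G n, (b = da β ∨ b = (da β)⁻¹) ∧
      Tendsto (fun k : ℕ => (b ^ k)⁻¹ * tv hij c * b ^ k) atTop (𝓝 1) := by
  rw [← ug_of_ne hij]
  rcases lt_or_gt_of_ne (hβ.ne hij) with h | h
  · exact ⟨da (-β), Or.inr (da_neg β), tendsto_conj_ug' i j _ (by simpa using h) c⟩
  · exact ⟨da β, Or.inl rfl, tendsto_conj_ug' i j _ h c⟩

theorem gen_da (hn : 2 ≤ n) {β : Fin n → ℝ} (hβ : Function.Injective β) : Gen (da β) := by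
  intro S ha hS
  refine mem_of_tv hn S fun i j hij c => ?_
  obtain ⟨b, hb, hl⟩ := exists_conj hβ hij c
  refine hS b ?_ _ hl
  rcases hb with rfl | rfl
  exacts [ha, inv_mem ha]

theorem gen_pi (hn : 2 ≤ n) {β : Fin n → ℝ} (hβ : Function.Injective β) (k : ℕ) :
    Gen (fun _ : Fin k => da β) := by
  intro S ha hS g
  refine Subgroup.pi_mem_of_mulSingle_mem g fun l => ?_
  refine mem_of_tv hn (S.comap (MonoidHom.mulSingle (fun _ : Fin k => G n) l))
    (fun i j hij c => ?_) (g l)
  obtain ⟨b, hb, hl⟩ := exists_conj hβ hij c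
  refine hS (fun _ => b) ?_ _ (tendsto_pi_nhds.2 fun l' => ?_)
  · rcases hb with rfl | rfl
    exacts [ha, inv_mem ha]
  · by_cases h : l' = l
    · subst h
      simpa using hl
    · simp [Pi.mulSingle_eq_of_ne h]

theorem exists_regular (hn : 0 < n) : ∃ (β : Fin n → ℝ) (u : Fin (n - 1) → ℝ),
    Function.Injective β ∧ aexp u = da β := by
  let β : Fin n → ℝ := fun i => (i.1 : ℝ)
  obtain ⟨u, hu⟩ := exists_aexp hn (δ := fun i => Real.exp (β i - mean β))
    (fun j => Real.exp_pos _) (by rw [← det_diagonal]; exact (da β).2)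
  exact ⟨β, u, fun i j h => Fin.ext (Nat.cast_injective (R := ℝ) h), Subtype.ext hu⟩

end gen

end Vale.Agent.N007
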