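import Vale.Agent.N007.Arith
import Vale.Agent.P007X.All
import Vale.Agent.P007X.Tb
import Vale.Agent.P007X.LinG
import Vale.Agent.P007X.Lin

/-! Packet measures, single orbits, tuples and twists. -/

open MeasureTheory Matrix NumberField Filter Topology Module
open scoped nonZeroDivisors ENNReal CompactlySupported BoundedContinuousFunction

namespace Vale.Agent.N007

open Vale.Agent.P007 (G pt tr aexp orb orbMeas StabBasis)

variable {n : ℕ}

open Classical in
/-- The invariant probability of an orbit. -/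
noncomputable def oP (S : Set (X n)) : Measure (X n) :=
  if h : ∃ ν, IsOrbitProb flow S ν then h.choose else Measure.dirac (std n)

instance (S : Set (X n)) : IsProbabilityMeasure (oP S) := by
  unfold oP
  split_ifs with h
  · exact h.choose_spec.1
  · infer_instance

namespace Triple

variable {T : Triple n} {b : Basis (Fin (n - 1)) ℝ (Fin (n - 1) → ℝ)}

theorem existsUnique_prob {S : Set (X n)} (hS : S ∈ T.packet) : ∃! ν, IsOrbitProb flow S ν := by
  obtain ⟨b, hb⟩ := T.exists_common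
  obtain ⟨Λ, hΛ⟩ := nonempty_of_mem hS
  have h := hb.per hS hΛ
  rw [← orbit_of_mem hS hΛ]
  exact ⟨_, flow_flow.nu_isOrbitProb h, fun ν hν => flow_flow.unique h hν⟩

theorem oP_spec {S : Set (X n)} (hS : S ∈ T.packet) : IsOrbitProb flow S (oP S) := by
  have h := (existsUnique_prob hS).exists
  rw [oP, dif_pos h]
  exact h.choose_spec

theorem eq_oP {S : Set (X n)} (hS : S ∈ T.packet) {ν : Measure (X n)}
    (h : IsOrbitProb flow S ν) : ν = oP S := (existsUnique_prob hS).unique h (oP_spec hS)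

theorem isCompact_of_mem {S : Set (X n)} (hS : S ∈ T.packet) : IsCompact S := by
  obtain ⟨b, hb⟩ := T.exists_common
  obtain ⟨Λ, hΛ⟩ := nonempty_of_mem hS
  rw [← orbit_of_mem hS hΛ]
  exact flow_flow.isCompact_orbit (hb.per hS hΛ)

theorem vol_pos {S : Set (X n)} (hS : S ∈ T.packet) : 0 < vol S := by
  obtain ⟨b, hb⟩ := T.exists_common
  rw [hb.vol_eq hS]
  exact ENNReal.toReal_pos (ZSpan.measure_fundamentalDomain_ne_zero b) (vol_fd_ne_top b)

theorem vol_eq_vol {S S' : Set (X n)} (hS : S ∈ T.packet) (hS' : S' ∈ T.packet) :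
    vol S = vol S' := by
  obtain ⟨b, hb⟩ := T.exists_common
  rw [hb.vol_eq hS, hb.vol_eq hS']

variable (T)

/-- The packet as a finite set. -/
noncomputable def P : Finset (Set (X n)) := T.packet_finite.toFinset

theorem mem_P {S : Set (X n)} : S ∈ T.P ↔ S ∈ T.packet := Set.Finite.mem_toFinset _

theorem card_P : T.P.card = T.packet.ncard := (Set.ncard_eq_toFinset_card _ _).symm

theorem card_pos : 0 < T.P.card :=
  Finset.card_pos.2 (T.packet_nonempty.imp fun _ h => T.mem_P.2 h)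

/-- The mean of the orbit probabilities. -/
noncomputable def avg : Measure (X n) := (T.P.card : ℝ≥0∞)⁻¹ • ∑ S ∈ T.P, oP S

theorem smul_aux {N : ℕ} {V : ℝ≥0∞} (h0 : V ≠ 0) (h1 : V ≠ ⊤) (ρ : Measure (X n)) :
    ((N : ℝ≥0∞) * V)⁻¹ • V • ρ = (N : ℝ≥0∞)⁻¹ • ρ := by
  rw [smul_smul, ENNReal.mul_inv (Or.inr h1) (Or.inr h0), mul_assoc, ENNReal.inv_mul_cancel h0 h1,
    mul_one]

theorem isPacketMeasure_iff {μ : Measure (X n)} : T.IsPacketMeasure μ ↔ μ = T.avg := by
  obtain ⟨b, hb⟩ := T.exists_common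
  have key : ∀ ν : Set (X n) → Measure (X n), (∀ S ∈ T.packet, IsOrbitProb flow S (ν S)) →
      (∑ᶠ S ∈ T.packet, ENNReal.ofReal (vol S))⁻¹ •
        ∑ᶠ S ∈ T.packet, ENNReal.ofReal (vol S) • ν S = T.avg := by
    intro ν hν
    have hV : ∀ S ∈ T.P, ENNReal.ofReal (vol S) = volume (ZSpan.fundamentalDomain b) := by
      intro S hS
      rw [hb.vol_eq (T.mem_P.1 hS), ofReal_measureReal (vol_fd_ne_top b)]
    have h2 : ∀ S ∈ T.P, ENNReal.ofReal (vol S) • ν S =
        volume (ZSpan.fundamentalDomain b) • oP S := by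
      intro S hS
      rw [hV S hS, eq_oP (T.mem_P.1 hS) (hν S (T.mem_P.1 hS))]
    rw [finsum_mem_eq_finite_toFinset_sum _ T.packet_finite,
      finsum_mem_eq_finite_toFinset_sum _ T.packet_finite]
    change (∑ S ∈ T.P, _)⁻¹ • ∑ S ∈ T.P, _ = _
    rw [Finset.sum_congr rfl hV, Finset.sum_congr rfl h2, Finset.sum_const, nsmul_eq_mul,
      ← Finset.smul_sum,
      smul_aux (ZSpan.measure_fundamentalDomain_ne_zero b) (vol_fd_ne_top b), avg]
  constructor
  · rintro ⟨ν, hν, rfl⟩
    exact key ν hν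
  · rintro rfl
    exact ⟨oP, fun S hS => oP_spec hS, (key oP fun S hS => oP_spec hS).symm⟩

theorem map_packetMeas : T.D.toF.packetMeas.map (e n) = T.avg := by
  classical
  obtain ⟨b, hb⟩ := T.exists_common
  have hfin := T.D.toF.packet_finite.fintype
  have h0 := ZSpan.measure_fundamentalDomain_ne_zero (μ := volume) b
  have h1 : ∀ S : T.D.toF.packet, orbMeas S.1 Set.univ = volume (ZSpan.fundamentalDomain b) ∧
      (orbMeas S.1).map (e n) = volume (ZSpan.fundamentalDomain b) • oP (e n '' S.1) := by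
    rintro ⟨_, x, hx, rfl⟩
    have hS : orbit flow (e n x) ∈ T.packet := by
      rw [packet_eq, ← image_orb]
      exact ⟨orb x, ⟨x, hx, rfl⟩, rfl⟩
    have hx' := flow_flow.mem_orbit (e n x)
    have hsb : StabBasis x b := fun u => by
      rw [hb _ hS _ hx' u, ← e_flow, (e n).injective.eq_iff]
    refine ⟨Vale.Agent.P007.orbMeas_univ hsb, ?_⟩
    change (orbMeas (orb x)).map (e n) = _ • oP (e n '' orb x)
    rw [Vale.Agent.P007.orbMeas_eq hsb hsb.isSection_fundamentalDomain, image_orb,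
      ← eq_oP hS (flow_flow.nu_isOrbitProb (hb.per hS hx')), nu, lam, Measure.map_smul, smul_smul,
      ENNReal.mul_inv_cancel h0 (vol_fd_ne_top b), one_smul,
      Measure.map_map me (Vale.Agent.P007.continuous_orbMap x).measurable]
    congr 1
    funext u
    exact e_flow u x
  have hinj : Function.Injective fun S : T.D.toF.packet => e n '' S.1 := fun S S' h =>
    Subtype.ext ((e n).injective.image_injective h)
  have hP : T.P = Finset.univ.image fun S : T.D.toF.packet => e n '' S.1 := by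
    ext S
    rw [mem_P, packet_eq]
    simp
  rw [Vale.Agent.P007.Datum.packetMeas, Measure.map_smul, Measure.map_sum me.aemeasurable,
    Measure.sum_fintype, tsum_fintype]
  simp only [fun S => (h1 S).1, fun S => (h1 S).2]
  rw [Finset.sum_const, nsmul_eq_mul, ← Finset.smul_sum, smul_aux h0 (vol_fd_ne_top b), avg, hP,
    Finset.card_image_of_injective _ hinj, Finset.sum_image fun S _ S' _ h => hinj h]

instance : IsProbabilityMeasure T.avg := by
  have := Vale.Agent.P007.packetMeas_prob T.D.toF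
  rw [← map_packetMeas]
  exact Measure.isProbabilityMeasure_map me.aemeasurable

theorem packetMeasF : Vale.Agent.P007.F.PacketMeas (n := n) T.D.K T.D.O T.D.σ T.D.toF.packetMeas :=
  (Vale.Agent.P007.F.packetMeas_iff _).2 ⟨⟨T.D.real, T.D.deg, T.D.full⟩,
    (Vale.Agent.P007.T.pktMeas_iff ⟨T.D.real, T.D.deg, T.D.full⟩ _).2 rfl⟩

theorem integral_avg (g : X n →ᵇ ℝ) :
    ∫ x, g x ∂T.avg = (∑ S ∈ T.P, ∫ x, g x ∂oP S) / T.P.card := by
  rw [avg, integral_smul_measure, integral_finsetSum_measure fun S _ => g.integrable _]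
  simp [div_eq_inv_mul]

theorem avg_inv (u : Fin (n - 1) → ℝ) : T.avg.map (flow u) = T.avg := by
  have hm := (flow_flow.cont_z (T := flow (n := n)) u).measurable
  rw [avg, Measure.map_smul, ← Measure.mapₗ_apply_of_measurable hm, map_sum]
  congr 1
  refine Finset.sum_congr rfl fun S hS => ?_
  rw [Measure.mapₗ_apply_of_measurable hm]
  exact (oP_spec (T.mem_P.1 hS)).2.2 u

theorem avg_compl : T.avg (⋃ S ∈ T.packet, S)ᶜ = 0 := by
  rw [avg, Measure.smul_apply, Measure.finsetSum_apply, Finset.sum_eq_zero, smul_zero]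
  intro S hS
  exact measure_mono_null (Set.compl_subset_compl.2 (Set.subset_biUnion_of_mem (u := id)
    (T.mem_P.1 hS))) (oP_spec (T.mem_P.1 hS)).2.1

end Triple

section seq

variable {T : ℕ → Triple n} {m : Measure (X n)}

theorem weakTo_avg_iff (hm : IsHaar m) : WeakTo (fun i => (T i).avg) m ↔
    Vale.Agent.P007.WeakTo (fun i => (T i).D.toF.packetMeas) (m.map (e n).symm) := by
  have := hm.1
  have : IsProbabilityMeasure (m.map (e n).symm) :=
    Measure.isProbabilityMeasure_map me'.aemeasurable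
  have := fun i => Vale.Agent.P007.packetMeas_prob (T i).D.toF
  rw [← weakTo_iff, map_e_symm]
  simp only [Triple.map_packetMeas]

theorem invProb_symm (hm : IsHaar m) : Vale.Agent.P007.IsInvProb (m.map (e n).symm) :=
  isHaar_iff.1 (by rw [map_e_symm]; exact hm)

theorem Q1_iff (hn : 4 ≤ n) : Q1 n ↔ n.Prime := by
  rw [← Vale.Agent.P007.F.Q1_iff n hn]
  constructor
  · intro h K _ _ O σ μ m hμ hd hm
    let T : ℕ → Triple n := fun i => (Datum.ofF (hμ i).1).triple
    have h1 : μ = fun i => (T i).D.toF.packetMeas := funext fun i => by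
      obtain ⟨μ₀, -, hu⟩ := Vale.Agent.P007.F.exists_packetMeas (hμ i).1
      exact ((hu _).1 (hμ i)).trans ((hu _).1 (T i).packetMeasF).symm
    have hm' := (isHaar_iff (n := n) (m := m)).2 hm
    have h2 := (weakTo_avg_iff hm').1
      (h (fun i => (T i).data) _ _ (fun i => (T i).isPacketMeasure_iff.2 rfl) hm' hd)
    rw [h1]
    exact (congrArg (Vale.Agent.P007.WeakTo _) (map_symm_e (n := n) m)).mp h2
  · intro h T' μ m hμ hm hd
    let T : ℕ → Triple n := fun i => (T' i).reps.toT (T' i).σ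
    have h1 : μ = fun i => (T i).avg := funext fun i => (T i).isPacketMeasure_iff.1 (hμ i)
    rw [h1]
    exact (weakTo_avg_iff hm).2 (h (fun i => (T i).D.K) (fun i => (T i).D.O) (fun i => (T i).D.σ)
      _ _ (fun i => (T i).packetMeasF) hd (invProb_symm hm))

theorem criterion (hn : 3 ≤ n) (hm : IsHaar m) : WeakTo (fun i => (T i).avg) m ↔
    ∀ B : ℝ, ∀ᶠ i in atTop, ∀ a ∈ (T i).D.O, (∀ j, |(T i).D.σ j a| ≤ B) → ∃ z : ℤ, a = z :=
  (weakTo_avg_iff hm).trans (Vale.Agent.P007X.all_of hn (Vale.Agent.P007X.sTube n)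
    (Vale.Agent.P007X.sLinG hn (Vale.Agent.P007X.sLin n)) (fun i => (T i).packetMeasF)
    (invProb_symm hm)).1

theorem bcTo_avg (hm : IsHaar m) (h : WeakTo (fun i => (T i).avg) m) :
    BCTo (fun i => (T i).avg) m :=
  have := hm.1
  CcTo.bcTo (Eventually.of_forall fun _ => inferInstance) h.1

/-- The mean deviation of the single orbits tends to zero. -/
theorem mean_dev (hn : 2 ≤ n) (hm : IsHaar m) (h : WeakTo (fun i => (T i).avg) m) (f : X n →ᵇ ℝ) :
    Tendsto (fun i => (∑ S ∈ (T i).P, |∫ x, f x ∂oP S - ∫ x, f x ∂m|) / (T i).P.card)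
      atTop (𝓝 0) := by
  obtain ⟨u, hu, -⟩ := major hn hm
  refine tendsto_order.2 ⟨fun ε hε => Eventually.of_forall fun i => hε.trans_le (by positivity),
    fun ε hε => ?_⟩
  obtain ⟨g, -, hg, hg'⟩ := hu f ε hε
  filter_upwards [(bcTo_avg hm h g).eventually (gt_mem_nhds hg)] with i hi
  refine lt_of_le_of_lt ?_ hi
  rw [Triple.integral_avg]
  refine div_le_div_of_nonneg_right (Finset.sum_le_sum fun S hS => ?_) (Nat.cast_nonneg _)
  exact hg' _ inferInstance ((Triple.oP_spec ((T i).mem_P.1 hS)).2.2 u)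

theorem mostOrbits (hn : 2 ≤ n) (hm : IsHaar m) (h : WeakTo (fun i => (T i).avg) m) :
    MostOrbits (fun i => (T i).packet) m := by
  classical
  have := hm.1
  have hc : ∀ i, (0 : ℝ) < (T i).P.card := fun i => Nat.cast_pos.2 (T i).card_pos
  obtain ⟨E, hE, hE'⟩ := exists_good
    (fun i A => (((T i).P.filter (· ∈ A)).card : ℝ) / (T i).P.card) (fun i A => by positivity)
    (fun i => by simp)
    (fun i A B hAB => div_le_div_of_nonneg_right (Nat.cast_le.2 (Finset.card_le_card
      (Finset.monotone_filter_right _ fun S _ hS => hAB hS))) (hc i).le)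
    (fun i A B => by
      rw [← add_div, ← Nat.cast_add]
      refine div_le_div_of_nonneg_right (Nat.cast_le.2 ?_) (hc i).le
      simp only [Set.mem_union, Finset.filter_or]
      exact Finset.card_union_le _ _)
    (fun _ S => oP S) (fun _ _ => inferInstance) m (fun f ε hε => by
      have h1 := (mean_dev hn hm h f).div_const ε
      rw [zero_div] at h1
      refine squeeze_zero (fun i => by positivity) (fun i => ?_) h1
      rw [div_right_comm]
      refine div_le_div_of_nonneg_right ?_ (hc i).le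
      rw [le_div_iff₀ hε, ← nsmul_eq_mul, ← Finset.sum_const]
      refine (Finset.sum_le_sum fun S hS => (Finset.mem_filter.1 hS).2).trans
        (Finset.sum_le_sum_of_subset_of_nonneg (Finset.filter_subset _ _)
          fun S _ _ => abs_nonneg _))
  refine ⟨fun i => (T i).packet ∩ E i, fun i => Set.inter_subset_left, ?_, fun ν hν => ?_⟩
  · have h1 := hE.const_sub 1
    rw [sub_zero] at h1
    refine h1.congr fun i => ?_
    have h2 : ((T i).packet ∩ E i).ncard = ((T i).P.filter (· ∈ E i)).card := by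
      rw [← Set.ncard_coe_finset]
      congr 1
      ext S
      simp [Triple.mem_P]
    have h3 := Finset.card_filter_add_card_filter_not (s := (T i).P) (· ∈ E i)
    rw [h2, ← Triple.card_P, eq_div_iff (hc i).ne', sub_mul, div_mul_cancel₀ _ (hc i).ne', one_mul,
      sub_eq_iff_eq_add, ← h3, Nat.cast_add]
    congr
  · refine CcTo.weakTo (hν.mono fun i ⟨S, _, hS⟩ => hS.1) (hE' ν ?_).ccTo
    exact hν.mono fun i ⟨S, hS, hS'⟩ => ⟨S, hS.2, Triple.eq_oP hS.1 hS'⟩

theorem of_mostOrbits (hm : IsHaar m) (h : MostOrbits (fun i => (T i).packet) m) : WeakTo (fun i => (T i).avg) m := by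
  classical
  have := hm.1
  obtain ⟨Q, hQ, hQ1, hQ2⟩ := h
  refine CcTo.weakTo (Eventually.of_forall fun _ => inferInstance) (BCTo.ccTo fun f => ?_)
  have hc : ∀ i, (0 : ℝ) < (T i).P.card := fun i => Nat.cast_pos.2 (T i).card_pos
  let d : Set (X n) → ℝ := fun S => |∫ x, f x ∂oP S - ∫ x, f x ∂m|
  have hd : ∀ S, d S ≤ 2 * ‖f‖ := fun S => by
    have h1 := f.norm_integral_le_norm (oP S)
    have h2 := f.norm_integral_le_norm m
    refine (abs_sub _ _).trans ?_
    rw [Real.norm_eq_abs] at h1 h2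
    linarith
  have hne : ∀ᶠ i in atTop, (Q i).Nonempty := by
    filter_upwards [hQ1.eventually (lt_mem_nhds zero_lt_one)] with i hi
    by_contra h0
    rw [Set.not_nonempty_iff_eq_empty.1 h0] at hi
    simp at hi
  have hex : ∀ i, ∃ S, (Q i).Nonempty → S ∈ Q i ∧ ∀ S' ∈ Q i, d S' ≤ d S := by
    intro i
    by_cases h0 : (Q i).Nonempty
    · obtain ⟨S, hS⟩ := Set.exists_max_image (Q i) d ((T i).packet_finite.subset (hQ i)) h0
      exact ⟨S, fun _ => hS⟩
    · exact ⟨∅, fun h => absurd h h0⟩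
  choose S hS using hex
  have h1 := CcTo.bcTo (Eventually.of_forall fun _ => inferInstance) (hQ2 (fun i => oP (S i))
    (hne.mono fun i hi => ⟨S i, (hS i hi).1, Triple.oP_spec (hQ i (hS i hi).1)⟩)).1 f
  have h2 : Tendsto (fun i => d (S i) + 2 * ‖f‖ * (1 - ((Q i).ncard : ℝ) / (T i).packet.ncard))
      atTop (𝓝 0) := by
    have h3 := (tendsto_iff_norm_sub_tendsto_zero.1 h1).add ((hQ1.const_sub 1).const_mul (2 * ‖f‖))
    simpa using h3
  refine tendsto_iff_norm_sub_tendsto_zero.2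
    (squeeze_zero' (Eventually.of_forall fun i => norm_nonneg _) (hne.mono fun i hi => ?_) h2)
  have h4 : (Q i).ncard = ((T i).P.filter (· ∈ Q i)).card := by
    rw [← Set.ncard_coe_finset]
    congr 1
    ext S'
    simp only [Finset.coe_filter, Triple.mem_P, Set.mem_ofPred_eq]
    exact ⟨fun h => ⟨hQ i h, h⟩, fun h => h.2⟩
  have h5 : (((T i).P.filter (· ∈ Q i)).card : ℝ) + ((T i).P.filter (· ∉ Q i)).card =
      (T i).P.card := by
    exact_mod_cast Finset.card_filter_add_card_filter_not (s := (T i).P) (· ∈ Q i)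
  have h6 : ∫ x, f x ∂(T i).avg - ∫ x, f x ∂m =
      (∑ S' ∈ (T i).P, (∫ x, f x ∂oP S' - ∫ x, f x ∂m)) / (T i).P.card := by
    rw [Triple.integral_avg, Finset.sum_sub_distrib, Finset.sum_const, nsmul_eq_mul, sub_div,
      mul_div_cancel_left₀ _ (hc i).ne']
  have h7 : ∑ S' ∈ (T i).P.filter (· ∈ Q i), d S' ≤ (T i).P.card * d (S i) := by
    refine (Finset.sum_le_card_nsmul _ _ (d (S i)) fun S' hS' =>
      (hS i hi).2 S' (Finset.mem_filter.1 hS').2).trans ?_
    rw [nsmul_eq_mul]
    exact mul_le_mul_of_nonneg_right (Nat.cast_le.2 (Finset.card_filter_le _ _)) (abs_nonneg _)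
  have h8 : ∑ S' ∈ (T i).P.filter (· ∉ Q i), d S' ≤
      ((T i).P.filter (· ∉ Q i)).card * (2 * ‖f‖) := by
    rw [← nsmul_eq_mul]
    exact Finset.sum_le_card_nsmul _ _ _ fun S' _ => hd S'
  rw [Real.norm_eq_abs, h6, abs_div, abs_of_pos (hc i), div_le_iff₀ (hc i), h4, ← Triple.card_P,
    add_mul, mul_assoc (2 * ‖f‖), sub_mul, div_mul_cancel₀ _ (hc i).ne']
  refine (Finset.abs_sum_le_sum_abs _ _).trans ?_
  rw [← Finset.sum_filter_add_sum_filter_not _ (· ∈ Q i)]
  have h9 : (1 : ℝ) * (T i).P.card - ((T i).P.filter (· ∈ Q i)).card =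
      ((T i).P.filter (· ∉ Q i)).card := by linarith
  rw [h9]
  linarith

theorem mostTuples (hn : 2 ≤ n) (hm : IsHaar m) (h : WeakTo (fun i => (T i).avg) m) (k : ℕ) :
    MostTuples k (fun i => (T i).avg) m := by
  have := hm.1
  obtain ⟨u, -, hu⟩ := major hn hm
  choose b hb using fun i => (T i).exists_common
  let ρ : ℕ → Measure (Fin k → X n) := fun i => Measure.pi fun _ => (T i).avg
  let D : ℕ → Set (Fin k → X n) := fun i => {z | ∀ l, z l ∈ ⋃ S ∈ (T i).packet, S}
  have hD : ∀ i, ρ i (D i)ᶜ = 0 := fun i => by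
    have h1 : ∀ᵐ z ∂ρ i, ∀ l, z l ∈ ⋃ S ∈ (T i).packet, S := ae_all_iff.2 fun l =>
      (Measure.tendsto_eval_ae_ae (μ := fun _ : Fin k => (T i).avg) (i := l)).eventually
        (T i).avg_compl
    exact h1
  have hper : ∀ i, ∀ z ∈ D i, Per diagFlow (b i) z := fun i z hz v hv => funext fun l => by
    obtain ⟨S, hS, hz'⟩ := Set.mem_iUnion₂.1 (hz l)
    exact (hb i).per hS hz' v hv
  have hρ : ∀ i v, (ρ i).map (diagFlow v) = ρ i := fun i v =>
    pi_map_eq (fun _ => flow v) (fun _ => (flow_flow.cont_z v).measurable) fun _ => (T i).avg_inv v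
  obtain ⟨E, hE, hE'⟩ := exists_good (fun i A => (ρ i).real (A ∩ D i))
    (fun i A => measureReal_nonneg) (fun i => by simp)
    (fun i A B hAB => measureReal_mono (Set.inter_subset_inter_left _ hAB))
    (fun i A B => by
      rw [Set.union_inter_distrib_right]
      exact measureReal_union_le _ _)
    (fun i z => nu diagFlow (b i) z) (fun i z => (flow_diag k).nu_prob _ z)
    (Measure.pi fun _ : Fin k => m) (fun f ε hε => by
      refine tendsto_order.2 ⟨fun δ hδ => Eventually.of_forall fun i =>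
        hδ.trans_le measureReal_nonneg, fun δ hδ => ?_⟩
      obtain ⟨g, hg0, hg, hg'⟩ := hu k f (ε * δ) (mul_pos hε hδ)
      filter_upwards [((bcTo_avg hm h).pi k g).eventually (gt_mem_nhds hg)] with i hi
      refine lt_of_mul_lt_mul_left (lt_of_le_of_lt (le_trans ?_
        ((flow_diag k).markov (b i) (ρ i) (hρ i) g hg0 ε)) hi) hε.le
      refine mul_le_mul_of_nonneg_left (measureReal_mono fun z hz => ?_) hε.le
      exact le_trans hz.1
        (hg' _ ((flow_diag k).nu_prob _ z) ((flow_diag k).nu_inv (hper i z hz.2) u)))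
  refine ⟨fun i => E i ∩ D i, ?_, fun i z hz => ⟨(flow_diag k).isCompact_orbit (hper i z hz.2),
    _, (flow_diag k).nu_isOrbitProb (hper i z hz.2),
    fun ν hν => (flow_diag k).unique (hper i z hz.2) hν⟩, fun ν hν => ?_⟩
  · have h1 := ENNReal.tendsto_ofReal hE
    rw [ENNReal.ofReal_zero] at h1
    refine tendsto_of_tendsto_of_tendsto_of_le_of_le tendsto_const_nhds h1
      (fun i => zero_le) fun i => ?_
    change ρ i _ ≤ _
    rw [ofReal_measureReal]
    refine le_trans (measure_mono (t := (E i)ᶜ ∩ D i ∪ (D i)ᶜ) fun z hz => ?_)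
      ((measure_union_le _ _).trans (by rw [hD, add_zero]))
    by_cases h2 : z ∈ D i
    · exact Or.inl ⟨fun h3 => hz ⟨h3, h2⟩, h2⟩
    · exact Or.inr h2
  · refine CcTo.weakTo (hν.mono fun i ⟨z, _, hz⟩ => hz.1) (hE' ν ?_).ccTo
    exact hν.mono fun i ⟨z, hz, hz'⟩ => ⟨z, hz.1, (flow_diag k).unique (hper i z hz.2) hz'⟩

theorem twists (hn : 2 ≤ n) (hm : IsHaar m) (h : WeakTo (fun i => (T i).avg) m) :
    Twists (fun i => (T i).data) m := by
  classical
  intro w (ν : ∀ i, ClassGroup (T i).D.O → Measure (X n)) hν f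
  have hfin : ∀ i, Fintype (ClassGroup (T i).D.O) := fun i =>
    @Fintype.ofFinite _ (T i).finite_classGroup
  have hh : ∀ i, (0 : ℝ) < Nat.card (ClassGroup (T i).D.O) := fun i => Nat.cast_pos.2 Nat.card_pos
  have hc : ∀ i, (0 : ℝ) < (T i).P.card := fun i => Nat.cast_pos.2 (T i).card_pos
  have h1 : Tendsto (fun i => (∑ c, |∫ x, f x ∂ν i c - ∫ x, f x ∂m|) /
      Nat.card (ClassGroup (T i).D.O)) atTop (𝓝 0) := by
    have h2 := (mean_dev hn hm h f).mul_const ((2 : ℝ) ^ n)
    rw [zero_mul] at h2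
    refine squeeze_zero (fun i => by positivity) (fun i => ?_) h2
    have h3 : ∀ c, ν i c = oP (orbit flow ((T i).point c (w i))) := fun c => by
      obtain ⟨Λ, h4, h5⟩ := hν i c
      rw [(T i).eq_point h4] at h5
      exact Triple.eq_oP ((T i).orbit_point_mem c (w i)) h5
    have h6 : ∑ c, |∫ x, f x ∂ν i c - ∫ x, f x ∂m| ≤
        ∑ S ∈ (T i).P, |∫ x, f x ∂oP S - ∫ x, f x ∂m| := by
      simp only [h3]
      rw [← Finset.sum_image (f := fun S => |∫ x, f x ∂oP S - ∫ x, f x ∂m|)
        fun c _ c' _ hcc => (T i).orbit_inj (w i) hcc]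
      refine Finset.sum_le_sum_of_subset_of_nonneg (fun S hS => ?_) fun S _ _ => abs_nonneg _
      obtain ⟨c, -, rfl⟩ := Finset.mem_image.1 hS
      exact (T i).mem_P.2 ((T i).orbit_point_mem c (w i))
    have h7 : ((T i).P.card : ℝ) ≤ Nat.card (ClassGroup (T i).D.O) * 2 ^ n := by
      rw [Triple.card_P]
      exact_mod_cast (T i).ncard_le
    rw [div_mul_eq_mul_div, div_le_div_iff₀ (hh i) (hc i), mul_assoc]
    exact mul_le_mul h6 (by rw [mul_comm]; exact h7) (hc i).le (by positivity)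
  refine ⟨h1.congr fun i => congrArg (· / _)
    (finsum_eq_sum_of_fintype (α := ClassGroup (T i).D.O) _).symm, fun χ' hχ => ?_⟩
  change Tendsto (fun i => (∑ᶠ c : ClassGroup (T i).D.O, χ' i c * (∫ x, f x ∂ν i c : ℝ)) /
    (Nat.card (ClassGroup (T i).D.O) : ℂ)) atTop (𝓝 0)
  simp only [finsum_eq_sum_of_fintype]
  refine squeeze_zero_norm' (hχ.mono fun i hi => ?_) h1
  let χ : ClassGroup (T i).D.O →* ℂ := ⟨⟨χ' i, hi.one⟩, hi.mul⟩
  change ‖(∑ c, χ c * (∫ x, f x ∂ν i c : ℝ)) / (Nat.card (ClassGroup (T i).D.O) : ℂ)‖ ≤ _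
  have h2 : ∑ c, χ c = 0 := sum_hom_units_eq_zero _ fun h0 => by
    obtain ⟨c, hc⟩ := hi.ne
    exact hc (DFunLike.congr_fun h0 c)
  have h3 : ∑ c, χ c * (∫ x, f x ∂ν i c : ℝ) =
      ∑ c, χ c * ((∫ x, f x ∂ν i c - ∫ x, f x ∂m : ℝ) : ℂ) := by
    simp only [Complex.ofReal_sub, mul_sub, Finset.sum_sub_distrib, ← Finset.sum_mul, h2, zero_mul,
      sub_zero]
  rw [h3, norm_div, Complex.norm_natCast]
  refine div_le_div_of_nonneg_right ((norm_sum_le _ _).trans (Finset.sum_le_sum fun c _ => ?_))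
    (hh i).le
  have h4 : ‖χ c‖ = 1 := Complex.norm_eq_one_of_pow_eq_one
    (by rw [← map_pow, pow_card_eq_one, map_one]) Fintype.card_ne_zero
  rw [norm_mul, h4, one_mul, Complex.norm_real, Real.norm_eq_abs]

end seq

end Vale.Agent.N007
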