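import Vale.Agent.N007.Sub

open MeasureTheory NumberField Filter Topology
open scoped nonZeroDivisors

namespace Vale.Agent.N007.Old

open Vale.Agent.N007

/-- **Q1 on the space of lattices; single orbits, twists and joint equidistribution.**
(1) For `n ≥ 4` the assertion of Q1 holds in degree `n` if and only if `n` is prime.
(2) For composite `n ≥ 4` some sequence of packets of maximal orders converges weakly to a
probability which is singular to `m_n`. (3) For `n ≥ 3` mass never escapes, and the packets of an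
arbitrary sequence equidistribute iff the discriminants of the orders `O_i ∩ F`, `F ≠ ℚ` a subfield
of `K_i`, tend to infinity uniformly, iff almost every single orbit equidistributes, iff the averages
over the class group of the deviations (and their twists by characters) tend to zero, iff the
diagonal orbits of almost all `k`-tuples of points equidistribute in `X_n^k`.
(4) All the objects exist and are unique. -/
theorem orbits :
    (∀ n : ℕ, 4 ≤ n → (Q1 n ↔ n.Prime)) ∧
    (∀ n : ℕ, 4 ≤ n → ¬ n.Prime →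
      ∃ (T : ℕ → Data n) (μ : ℕ → Measure (X n)) (ν : Measure (X n)),
        (∀ i, (T i).O = ⊤ ∧ IsAverage (packet (T i).σ (T i).rep) (μ i)) ∧
        Tendsto (fun i => disc (T i).O) atTop atTop ∧ IsProbabilityMeasure ν ∧ WeakTo μ ν ∧
        ∀ m, IsHaar m → ν.MutuallySingular m) ∧
    (∀ n : ℕ, 3 ≤ n → ∀ (T : ℕ → Data n) (μ : ℕ → Measure (X n)),
      (∀ i, IsAverage (packet (T i).σ (T i).rep) (μ i)) →
      (Tendsto (fun i => disc (T i).O) atTop atTop → NoEscape μ) ∧
      ∀ m, IsHaar m → (WeakTo μ m ↔ ∀ N, ∀ᶠ i in atTop, SubGe (T i).O N) ∧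
        (WeakTo μ m ↔ MostOrbits (fun i => packet (T i).σ (T i).rep) m) ∧
        (WeakTo μ m ↔ Twists T m) ∧ ∀ k, 1 ≤ k → (WeakTo μ m ↔ MostTuples k μ m)) ∧
    (∀ n : ℕ, 1 ≤ n → ∃! m : Measure (X n), IsHaar m) ∧
    (∀ (n : ℕ) (K : Type) [Field K] [NumberField K] (O : Subring (𝓞 K)) (σ : Fin n ≃ (K →+* ℝ)),
      (IsOrder n O → ∃ rep : Pic O → Idl O, IsReps n rep) ∧
      ∀ rep : Pic O → Idl O, IsReps n rep → Finite (Pic O) ∧
        (∀ (I : Idl O) (α : K), (∀ x ∈ I.set, α * x ∈ I.set) ↔ ∃ a ∈ O, (a : K) = α) ∧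
        (∀ c w, ∃! Λ, IsPoint σ (rep c).set w Λ) ∧
        (packet σ rep).Finite ∧ (packet σ rep).Nonempty ∧
        (∀ S ∈ packet σ rep, IsCompact S ∧ (∃! ν, IsOrbitProb flow S ν) ∧ 0 < vol S ∧
          ∀ S' ∈ packet σ rep, vol S = vol S') ∧
        (∃ μ, IsProbabilityMeasure μ ∧ ∀ μ', IsAverage (packet σ rep) μ' ↔ μ' = μ) ∧
        ∀ rep' : Pic O → Idl O, IsReps n rep' → packet σ rep' = packet σ rep) := by
  refine ⟨fun n hn => Q1_iff hn, fun n hn hc => ?_, fun n hn T' μ hμ => ?_,
    fun n hn => existsUnique_haar hn,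
    fun n K _ _ O σ => ⟨fun h => ⟨_, (h.toD σ).triple.isReps⟩, fun rep h => ?_⟩⟩
  · obtain ⟨T, ν, h1, h2⟩ := composite hn hc
    exact ⟨fun i => (T i).data, _, ν, fun i => ⟨h1 i, (T i).isPacketMeasure_iff.2 rfl⟩, h2⟩
  · let T : ℕ → Triple n := fun i => (T' i).reps.toT (T' i).σ
    have h1 : μ = fun i => (T i).avg := funext fun i => (T i).isPacketMeasure_iff.1 (hμ i)
    rw [h1]
    exact ⟨noEscape (T := T) hn, fun m hm => ⟨(criterion hn hm).trans (subDisc_iff (T := T)).symm,
      ⟨mostOrbits (T := T) (by omega) hm, of_mostOrbits (T := T) hm⟩,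
      ⟨twists (T := T) (by omega) hm, of_twists (T := T) hm⟩,
      fun k hk => ⟨fun h => mostTuples (by omega) hm h k, of_mostTuples hm hk⟩⟩⟩
  · let T := h.toT σ
    exact ⟨T.finite_classGroup, Datum.proper (D := T.D), T.existsUnique_point, T.packet_finite,
      T.packet_nonempty, fun S hS => ⟨Triple.isCompact_of_mem (T := T) hS,
        Triple.existsUnique_prob (T := T) hS, Triple.vol_pos (T := T) hS,
        fun S' hS' => Triple.vol_eq_vol (T := T) hS hS'⟩,
      ⟨T.avg, inferInstance, fun _ => T.isPacketMeasure_iff⟩,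
      fun rep' h' => (h'.toT σ).packet_eq.trans T.packet_eq.symm⟩

end Vale.Agent.N007.Old
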