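import Vale.Agent.N007.Main
import Vale.Agent.P007.S11.Final
import Vale.Agent.P007.S11.MainAll

/-! The criterion by discriminants of subfields, the converses, escape of mass. -/

open MeasureTheory Matrix NumberField Filter Topology Module
open scoped nonZeroDivisors ENNReal CompactlySupported BoundedContinuousFunction IntermediateField

namespace Vale.Agent.N007

variable {n : ℕ}

namespace Datum

variable (D : Datum n)

theorem sub_triple (F : IntermediateField ℚ D.K) : ∃ τ : Fin (finrank ℚ F) ≃ (F →+* ℝ),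
    Vale.Agent.P007.F.IsTriple F (D.O.comap (algebraMap (𝓞 F) (𝓞 D.K))) τ := by
  have := D.real
  have := D.full
  obtain ⟨τ⟩ := Vale.Agent.P007.nonempty_ordering F _ rfl
  refine ⟨τ, inferInstance, rfl, ⟨?_⟩⟩
  have h : (D.O.comap (algebraMap (𝓞 F) (𝓞 D.K))).toAddSubgroup =
      D.O.toAddSubgroup.comap (algebraMap (𝓞 F) (𝓞 D.K)).toAddMonoidHom := rfl
  rw [h, AddSubgroup.index_comap]
  exact AddSubgroup.FiniteIndex.index_ne_zero

theorem exists_ext (F : IntermediateField ℚ D.K) (τ : F →+* ℝ) :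
    ∃ j, ∀ x : F, τ x = D.σ j x := by
  have := D.real
  let φ := ComplexEmbedding.lift D.K (Complex.ofRealHom.comp τ)
  have hφ := IsTotallyReal.complexEmbedding_isReal φ
  refine ⟨D.σ.symm hφ.embedding, fun x => Complex.ofReal_injective ?_⟩
  rw [Equiv.apply_symm_apply, hφ.coe_embedding_apply]
  exact (ComplexEmbedding.lift_algebraMap_apply D.K (Complex.ofRealHom.comp τ) x).symm

theorem small_of_discIn {F : IntermediateField ℚ D.K} (hF : F ≠ ⊥) {N : ℕ} (h : D.discIn F ≤ N) :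
    ∃ a ∈ D.O, (∀ j, |D.σ j a| ≤ ((N : ℝ) + 1) ^ 3) ∧ ∀ z : ℤ, a ≠ z := by
  obtain ⟨τ, hτ⟩ := D.sub_triple F
  have h2 : 2 ≤ finrank ℚ F := by
    have h3 : 0 < finrank ℚ F := finrank_pos
    have h4 : finrank ℚ F ≠ 1 := fun h => hF (IntermediateField.finrank_eq_one_iff.1 h)
    omega
  obtain ⟨a, ha, h5, h6⟩ := Vale.Agent.P007X.House.small h2 hτ h
  refine ⟨_, ha, fun j => ?_, fun z hz => h6 z ?_⟩
  · have h7 := h5 (τ.symm ((D.σ j).comp (algebraMap F D.K)))
    rw [Equiv.apply_symm_apply] at h7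
    exact h7
  · refine RingOfIntegers.algebraMap.injective F D.K ?_
    rw [hz, map_intCast]

theorem discIn_le {a : 𝓞 D.K} (ha : a ∈ D.O) {B : ℝ} (hB : ∀ j, |D.σ j a| ≤ B) :
    (D.discIn ℚ⟮(a : D.K)⟯ : ℝ) ≤ (n.factorial * (max 1 B ^ n) ^ n) ^ 2 := by
  set F := ℚ⟮(a : D.K)⟯ with hF
  obtain ⟨τ, hτ⟩ := D.sub_triple F
  have hint : IsIntegral ℚ (a : D.K) := Algebra.IsIntegral.isIntegral _
  let pb := IntermediateField.adjoin.powerBasis hint
  let b : Basis (Fin (finrank ℚ F)) ℚ F := pb.basis.reindex (finCongr pb.finrank.symm)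
  have hb : ∀ i, b i = IntermediateField.AdjoinSimple.gen ℚ (a : D.K) ^ (i : ℕ) := by
    intro i
    rw [Basis.reindex_apply, pb.basis_eq_pow]
    rfl
  let D' := Vale.Agent.P007.T.mkD (Vale.Agent.P007.F.isDatum hτ)
  obtain ⟨A, hA, hlat⟩ := Vale.Agent.P007.N.exists_mat_order D'
  have h1 : |A.det| = √(D.discIn F : ℝ) := Vale.Agent.P007.N.abs_det_order D' hA hlat
  let M : Matrix (Fin (finrank ℚ F)) (Fin (finrank ℚ F)) ℝ := Matrix.of fun i j => τ j (b i)
  have hM : M.det ≠ 0 := D'.det_ne_zero b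
  let α : 𝓞 F := ⟨IntermediateField.AdjoinSimple.gen ℚ (a : D.K),
    (isIntegral_algHom_iff (F.val.restrictScalars ℤ) Subtype.val_injective).1 a.isIntegral_coe⟩
  have hα : α ∈ D.O.comap (algebraMap (𝓞 F) (𝓞 D.K)) := ha
  obtain ⟨P, hP⟩ := Vale.Agent.P007.exists_int_mul (M := M) (N := A) fun i => by
    rw [hlat]
    refine ⟨α ^ (i : ℕ), pow_mem hα _, funext fun j => ?_⟩
    change τ j (algebraMap (𝓞 F) F (α ^ (i : ℕ))) = τ j (b i)
    rw [hb, map_pow]
    rfl
  have h2 : |A.det| ≤ |M.det| := by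
    rw [hP, det_mul, Vale.Agent.P007.cast_det] at hM ⊢
    have h3 : (1 : ℝ) ≤ |(P.det : ℝ)| := by
      exact_mod_cast Int.one_le_abs (Int.cast_ne_zero.1 (left_ne_zero_of_mul hM))
    rw [abs_mul]
    exact le_mul_of_one_le_left (abs_nonneg _) h3
  have hd : finrank ℚ F ≤ n := F.toSubmodule.finrank_le.trans D.deg.le
  have h1B : 1 ≤ max 1 B := le_max_left _ _
  have h4 : |M.det| ≤ (Fintype.card (Fin (finrank ℚ F))).factorial •
      (max 1 B ^ n) ^ Fintype.card (Fin (finrank ℚ F)) := by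
    refine det_le (abv := AbsoluteValue.abs) fun i j => ?_
    obtain ⟨l, hl⟩ := D.exists_ext F (τ j)
    change |τ j (b i)| ≤ _
    rw [hb, map_pow, abs_pow, hl]
    exact (pow_le_pow_left₀ (abs_nonneg _) ((hB l).trans (le_max_right 1 B)) _).trans
      (pow_le_pow_right₀ h1B (i.2.le.trans hd))
  rw [Fintype.card_fin, nsmul_eq_mul] at h4
  have h5 : √(D.discIn F : ℝ) ≤ n.factorial * (max 1 B ^ n) ^ n := by
    refine (h1.ge.trans h2).trans (h4.trans (mul_le_mul (Nat.cast_le.2 (Nat.factorial_le hd))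
      (pow_le_pow_right₀ (one_le_pow₀ h1B) hd) (by positivity) (Nat.cast_nonneg _)))
  exact (Real.sqrt_le_iff.1 h5).2

theorem adjoin_ne_bot {a : 𝓞 D.K} (h : ∀ z : ℤ, a ≠ z) : ℚ⟮(a : D.K)⟯ ≠ ⊥ := by
  intro h1
  obtain ⟨q, hq⟩ := IntermediateField.mem_bot.1 (IntermediateField.adjoin_simple_eq_bot_iff.1 h1)
  have h2 : IsIntegral ℤ q := by
    have h3 : IsIntegral ℤ (a : D.K) := a.isIntegral_coe
    rw [← hq] at h3
    exact (isIntegral_algebraMap_iff (algebraMap ℚ D.K).injective).1 h3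
  obtain ⟨z, rfl⟩ := IsIntegrallyClosed.isIntegral_iff.1 h2
  refine h z (RingOfIntegers.coe_injective ?_)
  rw [map_intCast]
  exact hq.symm.trans (by simp)

end Datum

variable {T : ℕ → Triple n} {m : Measure (X n)}

theorem subDisc_iff : (∀ N : ℕ, ∀ᶠ i in atTop, SubGe (T i).D.O N) ↔
    ∀ B : ℝ, ∀ᶠ i in atTop, ∀ a ∈ (T i).D.O, (∀ j, |(T i).D.σ j a| ≤ B) → ∃ z : ℤ, a = z := by
  constructor
  · intro h B
    obtain ⟨N, hN⟩ := exists_nat_gt ((n.factorial * (max 1 B ^ n) ^ n) ^ 2 : ℝ)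
    filter_upwards [h N] with i hi a ha hB
    by_contra hz
    have h1 := hi _ ((T i).D.adjoin_ne_bot fun z h => hz ⟨z, h⟩)
    exact absurd ((Nat.cast_le.2 h1).trans ((T i).D.discIn_le ha hB)) (not_le.2 hN)
  · intro h N
    filter_upwards [h (((N : ℝ) + 1) ^ 3)] with i hi F hF
    by_contra h1
    obtain ⟨a, ha, h2, h3⟩ := (T i).D.small_of_discIn hF (not_le.1 h1).le
    obtain ⟨z, hz⟩ := hi a ha h2
    exact h3 z hz

theorem of_twists (hm : IsHaar m) (h : Twists (fun i => (T i).data) m) : WeakTo (fun i => (T i).avg) m := by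
  classical
  have := hm.1
  refine CcTo.weakTo (Eventually.of_forall fun _ => inferInstance) (BCTo.ccTo fun f => ?_)
  have hfin : ∀ i, Fintype (ClassGroup (T i).D.O) := fun i =>
    @Fintype.ofFinite _ (T i).finite_classGroup
  have hh : ∀ i, (0 : ℝ) < Nat.card (ClassGroup (T i).D.O) := fun i => Nat.cast_pos.2 Nat.card_pos
  have hc : ∀ i, (0 : ℝ) < (T i).P.card := fun i => Nat.cast_pos.2 (T i).card_pos
  let d : Set (X n) → ℝ := fun S => |∫ x, f x ∂oP S - ∫ x, f x ∂m|
  have h1 : Tendsto (fun i => ∑ w : Fin n → ℤˣ, (∑ c, d (orbit flow ((T i).point c w))) /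
      Nat.card (ClassGroup (T i).D.O)) atTop (𝓝 (∑ _w : Fin n → ℤˣ, 0)) := by
    refine tendsto_finset_sum _ fun w _ => ?_
    exact (h (fun _ => w)
      (fun i c => oP (orbit flow ((T i).point c w))) (fun i c => ⟨_, (T i).point_spec c w,
        Triple.oP_spec ((T i).orbit_point_mem c w)⟩) f).1.congr fun i => congrArg (· / _)
          (finsum_eq_sum_of_fintype (α := ClassGroup (T i).D.O) _)
  rw [Finset.sum_const_zero] at h1
  refine tendsto_iff_norm_sub_tendsto_zero.2 (squeeze_zero (fun i => norm_nonneg _) (fun i => ?_) h1)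
  have h6 : ∫ x, f x ∂(T i).avg - ∫ x, f x ∂m =
      (∑ S' ∈ (T i).P, (∫ x, f x ∂oP S' - ∫ x, f x ∂m)) / (T i).P.card := by
    rw [Triple.integral_avg, Finset.sum_sub_distrib, Finset.sum_const, nsmul_eq_mul, sub_div,
      mul_div_cancel_left₀ _ (hc i).ne']
  have h7 : (T i).P = Finset.univ.image fun p : (Fin n → ℤˣ) × ClassGroup (T i).D.O =>
      orbit flow ((T i).point p.2 p.1) := by
    ext S
    simp only [Triple.mem_P, Finset.mem_image, Finset.mem_univ, true_and]
    constructor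
    · rintro ⟨c, w, Λ, h, rfl⟩
      exact ⟨(w, c), by rw [(T i).eq_point h]⟩
    · rintro ⟨p, rfl⟩
      exact (T i).orbit_point_mem _ _
  have h8 : (Nat.card (ClassGroup (T i).D.O) : ℝ) ≤ (T i).P.card := by
    rw [Nat.card_eq_fintype_card, ← Finset.card_univ]
    exact Nat.cast_le.2 (Finset.card_le_card_of_injOn (fun c => orbit flow ((T i).point c 1))
      (fun c _ => (T i).mem_P.2 ((T i).orbit_point_mem c 1))
      fun c _ c' _ hcc => (T i).orbit_inj 1 hcc)
  rw [Real.norm_eq_abs, h6, abs_div, abs_of_pos (hc i), ← Finset.sum_div,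
    ← Fintype.sum_prod_type']
  refine div_le_div₀ (Finset.sum_nonneg fun p _ => abs_nonneg _)
    ((Finset.abs_sum_le_sum_abs _ _).trans ?_) (hh i) h8
  rw [h7]
  exact Finset.sum_image_le_of_nonneg fun S _ => abs_nonneg _

theorem of_mostTuples (hm : IsHaar m) {k : ℕ} (hk : 1 ≤ k)
    (h : MostTuples k (fun i => (T i).avg) m) : WeakTo (fun i => (T i).avg) m := by
  classical
  have := hm.1
  obtain ⟨E, hE, -, hE2⟩ := h
  refine CcTo.weakTo (Eventually.of_forall fun _ => inferInstance) (BCTo.ccTo fun f => ?_)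
  choose b hb using fun i => (T i).exists_common
  let ρ : ℕ → Measure (Fin k → X n) := fun i => Measure.pi fun _ => (T i).avg
  let D : ℕ → Set (Fin k → X n) := fun i => {z | ∀ l, z l ∈ ⋃ S ∈ (T i).packet, S}
  have hD : ∀ i, ρ i (D i)ᶜ = 0 := fun i => by
    have h1 : ∀ᵐ z ∂ρ i, ∀ l, z l ∈ ⋃ S ∈ (T i).packet, S := ae_all_iff.2 fun l =>
      (Measure.tendsto_eval_ae_ae (μ := fun _ : Fin k => (T i).avg) (i := l)).eventually
        (T i).avg_compl
    exact h1
  have hper : ∀ i, ∀ z ∈ D i, Per diagFlow (b i) z := fun i z hz v hv => funext fun l => by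
    obtain ⟨S, hS, hz'⟩ := Set.mem_iUnion₂.1 (hz l)
    exact (hb i).per hS hz' v hv
  have hρ : ∀ i v, (ρ i).map (diagFlow v) = ρ i := fun i v =>
    pi_map_eq (fun _ => flow v) (fun _ => (flow_flow.cont_z v).measurable) fun _ => (T i).avg_inv v
  let l : Fin k := ⟨0, hk⟩
  let F : (Fin k → X n) →ᵇ ℝ := f.compContinuous ⟨fun z => z l, continuous_apply l⟩
  have hF : ∀ (μ : Measure (X n)) [IsProbabilityMeasure μ],
      ∫ z, F z ∂Measure.pi (fun _ : Fin k => μ) = ∫ x, f x ∂μ := fun μ _ => by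
    conv_rhs => rw [← (measurePreserving_eval (fun _ : Fin k => μ) l).map_eq]
    exact (integral_map (measurable_pi_apply l).aemeasurable
      f.continuous.aestronglyMeasurable).symm
  have hbad : Tendsto (fun i => (ρ i).real (E i ∩ D i)ᶜ) atTop (𝓝 0) := by
    have h1 := (ENNReal.tendsto_toReal ENNReal.zero_ne_top).comp hE
    refine squeeze_zero (fun i => measureReal_nonneg) (fun i => ?_) h1
    refine ENNReal.toReal_mono (measure_ne_top _ _) ?_
    rw [Set.compl_inter]
    exact (measure_union_le _ _).trans (by rw [hD, add_zero])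
  have hne : ∀ᶠ i in atTop, (E i ∩ D i).Nonempty := by
    filter_upwards [hbad.eventually (gt_mem_nhds zero_lt_one)] with i hi
    by_contra h0
    rw [Set.not_nonempty_iff_eq_empty.1 h0] at hi
    simp at hi
  rw [Metric.tendsto_nhds]
  intro ε hε
  let d : ℕ → (Fin k → X n) → ℝ := fun i z => |∫ x, F x ∂nu diagFlow (b i) z - ∫ x, f x ∂m|
  have hex : ∀ i, ∃ z, ((E i ∩ D i).Nonempty → z ∈ E i ∩ D i) ∧
      (d i z < ε / 2 → ∀ z' ∈ E i ∩ D i, d i z' < ε / 2) := by
    intro i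
    by_cases h0 : ∀ z' ∈ E i ∩ D i, d i z' < ε / 2
    · by_cases h1 : (E i ∩ D i).Nonempty
      · exact ⟨h1.some, fun _ => h1.some_mem, fun _ => h0⟩
      · exact ⟨fun _ => std n, fun h => absurd h h1, fun _ => h0⟩
    · push Not at h0
      obtain ⟨z, hz, hz'⟩ := h0
      exact ⟨z, fun _ => hz, fun h => absurd h (not_lt.2 hz')⟩
  choose z hz hz' using hex
  have h1 := CcTo.bcTo (Eventually.of_forall fun i => (flow_diag k).nu_prob (b i) (z i))
    (hE2 (fun i => nu diagFlow (b i) (z i)) (hne.mono fun i hi => ⟨z i, (hz i hi).1,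
      (flow_diag k).nu_isOrbitProb (hper i _ (hz i hi).2)⟩)).1 F
  rw [hF] at h1
  have h2 := hbad.const_mul (2 * ‖f‖)
  rw [mul_zero] at h2
  filter_upwards [Metric.tendsto_nhds.1 h1 (ε / 2) (half_pos hε),
    h2.eventually (gt_mem_nhds (half_pos hε))] with i hi hi'
  obtain ⟨hint, heq⟩ := (flow_diag k).integral_nu (b i) (ρ i) (hρ i) F
  have hd : ∀ y, d i y ≤ 2 * ‖f‖ := fun y => by
    have := (flow_diag k).nu_prob (b i) y
    have h3 := (F.norm_integral_le_norm (nu diagFlow (b i) y)).trans (f.norm_compContinuous_le _)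
    have h4 := f.norm_integral_le_norm m
    refine (abs_sub _ _).trans ?_
    rw [Real.norm_eq_abs] at h3 h4
    linarith
  set N := toMeasurable (ρ i) (E i ∩ D i)ᶜ with hN
  have hNm : MeasurableSet N := measurableSet_toMeasurable _ _
  have h5 : ∫ y, (ε / 2 + N.indicator (fun _ => 2 * ‖f‖) y) ∂ρ i =
      ε / 2 + 2 * ‖f‖ * (ρ i).real (E i ∩ D i)ᶜ := by
    rw [integral_add (integrable_const _) ((integrable_const _).indicator hNm),
      integral_indicator_const _ hNm, integral_const, smul_eq_mul, smul_eq_mul, probReal_univ,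
      one_mul, mul_comm ((ρ i).real N), measureReal_def, hN, measure_toMeasurable]
    rfl
  have h6 : ∫ x, f x ∂(T i).avg - ∫ x, f x ∂m =
      ∫ y, (∫ x, F x ∂nu diagFlow (b i) y - ∫ x, f x ∂m) ∂ρ i := by
    rw [integral_sub hint (integrable_const _), ← heq, hF]
    simp
  rw [Real.dist_eq, h6]
  refine lt_of_le_of_lt (abs_integral_le_integral_abs.trans ((integral_mono
    (hint.sub (integrable_const _)).abs
    ((integrable_const _).add ((integrable_const _).indicator hNm)) fun y => ?_).trans h5.le))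
    (by linarith)
  change d i y ≤ ε / 2 + N.indicator (fun _ => 2 * ‖f‖) y
  by_cases hy : y ∈ N
  · rw [Set.indicator_of_mem hy]
    linarith [hd y]
  · rw [Set.indicator_of_notMem hy, add_zero]
    exact (hz' i hi y (not_not.1 fun h => hy (subset_toMeasurable _ _ h))).le

theorem exists_subseq (hn : 3 ≤ n) (hd : Tendsto (fun i => (T i).D.disc) atTop atTop) :
    ∃ φ : ℕ → ℕ, StrictMono φ ∧ ∃ ν, IsProbabilityMeasure ν ∧
      WeakTo (fun i => (T (φ i)).avg) ν := by
  obtain ⟨φ, hφ, ν, hν, hW⟩ : ∃ φ : ℕ → ℕ, StrictMono φ ∧ ∃ ν : Measure (Vale.Agent.P007.X n),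
      IsProbabilityMeasure ν ∧ Vale.Agent.P007.WeakTo (fun i => (T (φ i)).D.toF.packetMeas) ν :=
    Vale.Agent.P007.F.O3.subseq_fam hn
      (Vale.Agent.P007.S11.keyStmt n hn) (fun i => (T i).packetMeasF) hd
  have := fun i => Vale.Agent.P007.packetMeas_prob (T (φ i)).D.toF
  have h2 := weakTo_iff.2 hW
  simp only [Triple.map_packetMeas] at h2
  exact ⟨φ, hφ, _, Measure.isProbabilityMeasure_map me.aemeasurable, h2⟩

theorem noEscape (hn : 3 ≤ n) (hd : Tendsto (fun i => (T i).D.disc) atTop atTop) :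
    NoEscape fun i => (T i).avg := by
  intro ε hε
  by_contra h
  obtain ⟨ψ, hψ, h2⟩ := extraction_forall_of_frequently
    (P := fun k i => (T i).avg.real (CompactExhaustion.choice (X n) k) < 1 - ε) fun k => by
      by_contra h2
      exact h ⟨_, (CompactExhaustion.choice (X n)).isCompact k,
        (not_frequently.1 h2).mono fun i => not_lt.1⟩
  obtain ⟨φ, hφ, ν, -, hW⟩ := exists_subseq (T := fun i => T (ψ i)) hn (hd.comp hψ.tendsto_atTop)
  obtain ⟨C, hC, h3⟩ := hW.2 ε hε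
  obtain ⟨k, hk⟩ := (CompactExhaustion.choice (X n)).exists_superset_of_isCompact hC
  obtain ⟨i, h4, h5⟩ := (h3.and (hφ.tendsto_atTop.eventually_ge_atTop k)).exists
  exact absurd (h4.trans (measureReal_mono (hk.trans
    ((CompactExhaustion.choice (X n)).subset h5)))) (not_le.2 (h2 (φ i)))

theorem composite (hn : 4 ≤ n) (hc : ¬ n.Prime) : ∃ (T : ℕ → Triple n) (ν : Measure (X n)),
    (∀ i, (T i).D.O = ⊤) ∧ Tendsto (fun i => (T i).D.disc) atTop atTop ∧ IsProbabilityMeasure ν ∧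
      WeakTo (fun i => (T i).avg) ν ∧ ∀ m, IsHaar m → ν.MutuallySingular m := by
  obtain ⟨K, _, _, hK, hd, Y, hY, hm0, h⟩ := Vale.Agent.P007.F.composite_fails n hn hc
  have σ : ∀ i, Fin n ≃ (K i →+* ℝ) := fun i =>
    have := (hK i).1
    (Vale.Agent.P007.nonempty_ordering (K i) n (hK i).2).some
  have hD : ∀ i, Vale.Agent.P007.F.IsTriple (K i) ⊤ (σ i) := fun i =>
    ⟨(hK i).1, (hK i).2, ⟨by simp⟩⟩
  let T : ℕ → Triple n := fun i => (Datum.ofF (hD i)).triple
  have hd' : Tendsto (fun i => (T i).D.disc) atTop atTop := by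
    have h1 : (fun i => |discr (K i)|) = fun i => (((T i).D.disc : ℕ) : ℤ) :=
      funext fun i => (Vale.Agent.P007.F.disc_top (K i)).symm
    rw [h1] at hd
    exact tendsto_natCast_atTop_iff.mp hd
  obtain ⟨φ, hφ, ν, hν, hW⟩ := exists_subseq (by omega) hd'
  let Y' : Set (X n) := (e n).symm ⁻¹' Y
  have hY' : IsClosed Y' := IsClosed.preimage (e n).symm.continuous hY
  have h1 : ∀ i, (T i).avg Y' = 1 := fun i => by
    rw [← Triple.map_packetMeas, Measure.map_apply me hY'.measurableSet,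
      ← (h σ _ fun i => (T i).packetMeasF).1 i]
    exact congrArg _ (Set.ext fun x => by
      change (e n).symm (e n x) ∈ Y ↔ _
      rw [Homeomorph.symm_apply_apply]
      rfl)
  have h2 : ν Y'ᶜ = 0 := by
    let μ' : ℕ → ProbabilityMeasure (X n) := fun i => ⟨(T (φ i)).avg, inferInstance⟩
    let ν' : ProbabilityMeasure (X n) := ⟨ν, hν⟩
    have h5 : BCTo (fun i => (T (φ i)).avg) ν :=
      CcTo.bcTo (Eventually.of_forall fun _ => inferInstance) hW.1
    have h3 : Tendsto μ' atTop (𝓝 ν') := ProbabilityMeasure.tendsto_iff_forall_integral_tendsto.2 h5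
    have h4 : limsup (fun i => (T (φ i)).avg Y') atTop ≤ ν Y' :=
      ProbabilityMeasure.limsup_measure_closed_le_of_tendsto h3 hY'
    simp only [h1, limsup_const] at h4
    exact (prob_compl_eq_zero_iff hY'.measurableSet).2 (le_antisymm prob_le_one h4)
  refine ⟨fun i => T (φ i), ν, fun i => rfl, hd'.comp hφ.tendsto_atTop, hν, hW, fun m hm =>
    ⟨Y'ᶜ, hY'.measurableSet.compl, h2, ?_⟩⟩
  rw [compl_compl, ← hm0 _ (invProb_symm hm)]
  have hY2 : @IsClosed (Vale.Agent.P007.X n) _ Y := hY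
  exact (Measure.map_apply me' hY2.measurableSet).symm

end Vale.Agent.N007
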